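import Vale.Agent.P002.Product.Boundary.Quasi
import Vale.Agent.P002.Punct.Main
import Vale.Agent.P002.Punct.ClassRep
import Vale.Agent.P002.PunctTwo.Main
import Vale.Agent.P002.PunctTwo.NearTriv

/-!
Irreducible tuples with prescribed quasi-unipotent classes lie in the closure of the irreducible
ones over the integers of one number field.
-/

namespace Vale.Agent.P002

open Matrix MvPolynomial

variable {d : ℕ}

/-- The coordinates of a tuple. -/
def tcoord {κ : Type*} (f : κ → SLC d) : κ × Fin d × Fin d → ℂ :=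
  fun v => (f v.1).val v.2.1 v.2.2

/-- Irreducible tuples over the integers with the classes of `C`. -/
def intTuples {g s : ℕ} (M : ℕ) (C : Fin s → SLC d) : Set (CGen g s × Fin d × Fin d → ℂ) :=
  {y | ∃ f : CGen g s → SLC d, curveRel f = 1 ∧ (∀ l, IsConj (C l) (f (.inr l))) ∧
    (∀ v p q, (f v).val p q ∈ intL M) ∧ Irred (fun v => (f v).val) ∧ y = tcoord f}

theorem exists_dense_class [NeZero d] (hd : 2 ≤ d) {g s : ℕ} (hg : 2 ≤ g) (C : Fin s → SLC d)
    (hroot : ∀ j μ, (C j).val.charpoly.IsRoot μ → ∃ k : ℕ, 0 < k ∧ μ ^ k = 1) :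
    ∃ M, 0 < M ∧ ∀ f : CGen g s → SLC d, curveRel f = 1 → (∀ l, IsConj (C l) (f (.inr l))) →
      Irred (fun v => (f v).val) → tcoord f ∈ polyCl (intTuples M C) := by
  obtain ⟨n, rfl⟩ : ∃ n, g = n + 1 := ⟨g - 1, by omega⟩
  have hn : 1 ≤ n := by omega
  obtain ⟨M, hM, z, hz, hzR, htriv⟩ : ∃ M, 0 < M ∧ ∃ z : Fin s → SLC d,
      (∀ j, IsConj (C j) (z j)) ∧ (∀ j, z j ∈ inR (cycInt M) d) ∧
        ∀ Q : MvPolynomial (PVar n s d) ℂ,
          (∀ τ, relP z τ = 1 → IntP (cycInt M) τ → Full (gensP z τ) → eval (coordP τ) Q = 0) →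
          ∀ σ, relP z σ = 1 → Triv (tgensP z σ) → eval (coordP σ) Q = 0 := by
    rcases Nat.lt_or_ge n 2 with hn2 | hn2
    · obtain rfl : n = 1 := by omega
      obtain ⟨M, hM, z, hz, hzR, -, ht⟩ := exists_core_two hd C hroot
        fun z σ₀ h3 h4 ε hε => exists_near_trivP_one hd h3 h4 hε
      exact ⟨M, hM, z, fun j => by
        obtain ⟨h, hh⟩ := hz j
        exact isConj_iff.2 ⟨h, hh.symm⟩, hzR, ht⟩
    · choose z k hk htri hoff hdiag using fun j => exists_class_rep (C j)
      choose m hm0 hm1 using fun x : Fin s × Fin d =>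
        hroot x.1 _ ((Polynomial.mem_roots (Matrix.charpoly_monic _).ne_zero).1 (hdiag x.1 x.2))
      obtain ⟨M, hM, hzR, σ₀, hb₀, hrel₀, hint₀, hspan₀⟩ :=
        exists_seedP (n := n) hd hn2 z (∏ x, m x) (Finset.prod_pos fun x _ => hm0 x) htri hoff
          fun j a => by
            obtain ⟨e, he⟩ := Finset.dvd_prod_of_mem m (Finset.mem_univ (j, a))
            rw [he, pow_mul, hm1 (j, a), one_pow]
      exact ⟨M, hM, z, fun j => isConj_iff.2 ⟨(k j)⁻¹, by rw [hk j]; group⟩, hzR,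
        fun Q hQ σ hσ hT => eval_zero_of_trivP hd hzR hb₀ hrel₀ hint₀ hspan₀ hQ hσ hT⟩
  refine ⟨M, hM, fun f hrel hf hirr P hP => ?_⟩
  let tup : PRep n s (SLC d) → CGen (n + 1) s → SLC d := fun σ =>
    Sum.elim (fun w => if w.2 then σ.1.2 w.1 else σ.1.1 w.1) (pc z σ)
  have hsl : ∀ σ v, gensP z σ v = (tup σ v).val := by
    rintro σ (⟨i, b⟩ | j)
    · cases b <;> simp [tup, gensP, gens]
    · rfl
  have hrelP : ∀ σ, relP z σ = curveRel (tup σ) := fun σ => by
    rw [relP, pprod, relator_ofFn]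
    simp [curveRel, tup]
  have hev : ∀ σ : PRep n s (SLC d), eval (coordP σ) (pullP z P) = eval (tcoord (tup σ)) P :=
    fun σ => by
      rw [eval_pullP]
      exact congrArg (fun x => eval x P) (funext fun v => by rw [hsl]; rfl)
  have hQ : ∀ τ, relP z τ = 1 → IntP (cycInt M) τ → Full (gensP z τ) →
      eval (coordP τ) (pullP z P) = 0 := by
    intro τ hτ hτi hF
    rw [hev]
    refine hP _ ⟨tup τ, (hrelP τ).symm.trans hτ, fun l => (hz l).trans ?_, fun v p q => ?_,
      fun U hU => hF.invariant fun v u hu => by rw [hsl]; exact hU v u hu, rfl⟩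
    · exact isConj_iff.2 ⟨τ.2 l, rfl⟩
    · have hmem : tup τ v ∈ inR (cycInt M) d := by
        rcases v with ⟨i, b⟩ | j
        · cases b
          exacts [(hτi.1 i).1, (hτi.1 i).2]
        · exact mul_mem (mul_mem (hτi.2 j) (hzR j)) (inv_mem (hτi.2 j))
      obtain ⟨h1, h2⟩ := mem_cycInt.1 (mem_inR.1 hmem p q)
      exact mem_intL.2 ⟨IntermediateField.adjoin.mono ℚ _ _
        (Set.singleton_subset_iff.2 (Set.mem_insert _ _)) h1, h2⟩
  choose u hu using fun l => isConj_iff.1 ((hz l).symm.trans (hf l))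
  let σ : PRep n s (SLC d) :=
    ((fun i => f (.inl (i, false)), fun i => f (.inl (i, true))), u)
  have htup : tup σ = f := by
    funext v
    rcases v with ⟨i, b⟩ | j
    · cases b <;> rfl
    · exact hu j
  have hσ : relP z σ = 1 := by rw [hrelP, htup]; exact hrel
  have hF : Full (gensP z σ) := Irred.full fun U hU =>
    hirr U fun v w hw => by show (f v).val *ᵥ w ∈ U; rw [← htup, ← hsl]; exact hU v w hw
  rw [← htup, ← hev]
  by_contra hne
  obtain ⟨ε, hε, hball⟩ := Metric.eventually_nhds_iff.1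
    ((MvPolynomial.continuous_eval (pullP z P)).continuousAt.eventually_ne hne)
  obtain ⟨σ', h1, h2, h3⟩ : ∃ σ', relP z σ' = 1 ∧ dist (coordP σ') (coordP σ) < ε ∧
      Triv (tgensP z σ') := by
    rcases Nat.lt_or_ge n 2 with hn2 | hn2
    · obtain rfl : n = 1 := by omega
      exact exists_near_trivP_one hd hσ hF hε
    · exact exists_near_trivP hn2 hσ hF hε
  exact hball h2 (htriv _ hQ σ' h1 h3)

end Vale.Agent.P002
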