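import Vale.Agent.P002.Product.Boundary.CurveClasses

/-!
Curves of genus at least two with marked punctures have the twisting property with classes.
-/

namespace Vale.Agent.P002

open Matrix MvPolynomial

variable {Γ : Type*} [Group Γ] {d : ℕ}

/-- Transfer of closures to all group elements, with any target. -/
lemma hcoord_mem_of {X ι : Type*} (c : X → ι → ℂ) (φ : X → Γ →* SLC d) {S : Set Γ}
    (hS : Subgroup.closure S = ⊤)
    (h : ∀ γ ∈ S, ∃ Q : Matrix (Fin d) (Fin d) (MvPolynomial ι ℂ),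
      ∀ x, (φ x γ).val = (eval (c x)).mapMatrix Q)
    {T : Set (ι → ℂ)} {T' : Set (Γ × Fin d × Fin d → ℂ)}
    (hT : ∀ y ∈ T, ∃ x, y = c x ∧ hcoord (φ x) ∈ T')
    {x₀ : X} (hx : c x₀ ∈ polyCl T) : hcoord (φ x₀) ∈ polyCl T' := by
  choose Q hQ using polyMap_of_gens c φ hS h
  have e : ∀ x, hcoord (φ x) = fun v => eval (c x) (Q v.1 v.2.1 v.2.2) := fun x => funext fun v => by
    rw [hcoord, hQ]; rfl
  rw [e]
  refine polyCl_map _ (fun y hy => ?_) hx
  obtain ⟨x, rfl, hx'⟩ := hT y hy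
  rw [← e]
  exact subset_polyCl _ hx'

/-- In dimension one. -/
lemma twistedB_one (K : Set Γ) (M : ℕ) (ρ : Γ →* (Mat 1)ˣ) :
    ∃ (χ : Γ →* ℂˣ) (σ : Γ →* SLC 1) (U : (Mat 1)ˣ), hcoord σ ∈ polyCl (intHomB K M σ) ∧
      ∀ γ, (ρ γ).val = (χ γ : ℂ) • (U.val * (σ γ).val * U⁻¹.val) := by
  refine ⟨(Units.map Matrix.detMonoidHom).comp ρ, 1, 1,
    subset_polyCl _ ⟨1, fun γ p q => ?_, ?_, fun γ _ => IsConj.refl _, rfl⟩, fun γ => ?_⟩
  · rw [Subsingleton.elim p 0, Subsingleton.elim q 0]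
    simp
  · refine Irred.full fun U _ => ?_
    by_cases h0 : U = ⊥
    · exact Or.inl h0
    · exact Or.inr (Submodule.eq_top_of_finrank_eq (le_antisymm (Submodule.finrank_le U)
        (by
          rw [Module.finrank_fintype_fun_eq_card, Fintype.card_fin]
          exact Submodule.one_le_finrank_iff.2 h0)))
  · ext a b
    rw [Subsingleton.elim a 0, Subsingleton.elim b 0]
    simp [Matrix.detMonoidHom]

/-- Finitely many representatives of the classes with eigenvalues of bounded order. -/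
def repSet (N d : ℕ) : Set (SLC d) :=
  {z | Quasi N z.val ∧ ∀ a b, z.val a b = 0 ∨ z.val a b = 1 ∨ z.val a b ^ N = 1}

lemma finite_repSet {N d : ℕ} (hN : 0 < N) : (repSet N d).Finite := by
  have hF : ({x : ℂ | x = 0 ∨ x = 1 ∨ x ^ N = 1}).Finite := by
    refine ((Set.finite_singleton (0 : ℂ)).union
      ((Polynomial.nthRootsFinset N (1 : ℂ)).finite_toSet)).subset ?_
    rintro x (rfl | rfl | hx)
    · exact Or.inl rfl
    · exact Or.inr (by simp [Polynomial.mem_nthRootsFinset hN])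
    · exact Or.inr (by simp [Polynomial.mem_nthRootsFinset hN, hx])
  refine Set.Finite.of_finite_image ((Set.Finite.pi' fun _ : Fin d =>
    Set.Finite.pi' fun _ : Fin d => hF).subset ?_) (f := fun z : SLC d => fun a b => z.val a b)
    fun x _ y _ h => Subtype.ext h
  rintro _ ⟨z, hz, rfl⟩ a b
  exact hz.2 a b

lemma exists_repSet [NeZero d] {N : ℕ} {C : SLC d} (h : Quasi N C.val) :
    ∃ z ∈ repSet N d, IsConj z C := by
  obtain ⟨z, k, hk, -, hoff, hdiag⟩ := exists_class_rep C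
  have hroot : ∀ a, z.val a a ^ N = 1 := fun a =>
    quasi_iff.1 h _ ((Polynomial.mem_roots (Matrix.charpoly_monic _).ne_zero).1 (hdiag a))
  refine ⟨z, ⟨?_, fun a b => ?_⟩, isConj_iff.2 ⟨k, hk.symm⟩⟩
  · refine h.conj (Matrix.SpecialLinearGroup.toGL k⁻¹) ?_
    rw [hk]
    show z.val = _
    rw [← map_inv, inv_inv]
    show z.val = k⁻¹.val * (k * z * k⁻¹).val * k.val
    rw [← Matrix.SpecialLinearGroup.coe_mul, ← Matrix.SpecialLinearGroup.coe_mul]
    refine congrArg Subtype.val (?_ : z = _)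
    simp [mul_assoc]
  · rcases eq_or_ne a b with rfl | hab
    · exact Or.inr (Or.inr (hroot a))
    · exact (hoff a b hab).imp_right Or.inl

/-- The marked punctures of a curve. -/
def marks (g s : ℕ) : Set (CGrp g s) := Set.range fun l => PresentedGroup.of (Sum.inr l)

theorem twistedB_curve {g : ℕ} (hg : 2 ≤ g) (s : ℕ) :
    TwistedB (CGrp g (s + 1)) (marks g (s + 1)) := by
  classical
  intro R N hN
  have hM : ∀ (a : ℕ) (z : Fin (s + 1) → SLC a), (∀ l, z l ∈ repSet (a * N) a) →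
      ∃ M, 0 < M ∧ (2 ≤ a → ∀ f : CGen g (s + 1) → SLC a, curveRel f = 1 →
        (∀ l, IsConj (z l) (f (.inr l))) → Irred (fun v => (f v).val) →
          tcoord f ∈ polyCl (intTuples M z)) := by
    intro a z hz
    by_cases ha : 2 ≤ a
    · have : NeZero a := ⟨by omega⟩
      obtain ⟨M, hM, h⟩ := exists_dense_class ha hg z fun j μ hμ =>
        ⟨a * N, Nat.mul_pos (by omega) hN, quasi_iff.1 (hz j).1 μ hμ⟩
      exact ⟨M, hM, fun _ => h⟩
    · exact ⟨1, one_pos, fun h => absurd h ha⟩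
  choose Mf hMf0 hMf using hM
  have : ∀ a : ℕ, Finite (repSet (a * N) a) := fun a => by
    rcases Nat.eq_zero_or_pos a with rfl | ha
    · exact Finite.of_injective (fun _ => ()) fun x y _ =>
        Subtype.ext (Subtype.ext (Subsingleton.elim _ _))
    · exact (finite_repSet (Nat.mul_pos ha hN)).to_subtype
  have : ∀ a : ℕ, Fintype (repSet (a * N) a) := fun a => Fintype.ofFinite _
  let M := ∏ x : (Σ a : Fin (R + 1), (Fin (s + 1) → repSet ((a : ℕ) * N) a)),
    Mf x.1 (fun l => (x.2 l).1) fun l => (x.2 l).2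
  have hMpos : 0 < M := Finset.prod_pos fun x _ => hMf0 _ _ _
  refine ⟨M, hMpos, fun d _ hdR ρ hirr hq => ?_⟩
  rcases Nat.lt_or_ge d 2 with h2 | h2
  · obtain rfl : d = 1 := by have := Nat.pos_of_neZero d; omega
    exact twistedB_one _ _ ρ
  choose x hx using fun v : CGen g s => exists_scSL (ρ (PresentedGroup.of (keep v)))
  have hρ : ρ = (scSL d).comp (curveHom (extP x) (curveRel_extP x)) :=
    hom_ext_keep fun v => by simp [extP_keep, hx]
  set σ := (MonoidHom.snd ℂˣ (SLC d)).comp (curveHom (extP x) (curveRel_extP x)) with hσ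
  set χ := (MonoidHom.fst ℂˣ (SLC d)).comp (curveHom (extP x) (curveRel_extP x)) with hχ
  have hval : ∀ γ, (ρ γ).val = (χ γ : ℂ) • (σ γ).val := fun γ => by
    conv_lhs => rw [hρ]
    simp [scSL_val, hσ, hχ]
  choose z hz hzc using fun l => exists_repSet (C := σ (PresentedGroup.of (.inr l))) (N := d * N) (by
    have := hq _ ⟨l, rfl⟩
    rw [hval] at this
    exact this.split.2)
  have hdiv : Mf d z hz ∣ M :=
    Finset.dvd_prod_of_mem (fun x : (Σ a : Fin (R + 1), (Fin (s + 1) → repSet ((a : ℕ) * N) a)) =>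
      Mf x.1 (fun l => (x.2 l).1) fun l => (x.2 l).2)
      (Finset.mem_univ ⟨⟨d, by omega⟩, fun l => ⟨z l, hz l⟩⟩)
  have hI : Irred fun v : CGen g (s + 1) => (σ (PresentedGroup.of v)).val :=
    irred_snd hirr (closure_of _ _) fun γ hγ => by
      obtain ⟨v, rfl⟩ := hγ
      exact ⟨v, (χ (PresentedGroup.of v) : ℂ), hval _⟩
  have hdense := hMf d z hz h2 (fun v => σ (PresentedGroup.of v)) (curveRel_hom σ) hzc hI
  refine ⟨χ, σ, 1, ?_, fun γ => by rw [hval]; simp⟩
  let X := {f : CGen g (s + 1) → SLC d // curveRel f = 1}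
  have hσ' : σ = curveHom (fun v => σ (PresentedGroup.of v)) (curveRel_hom σ) :=
    PresentedGroup.ext fun v => by simp
  conv => arg 2; rw [hσ']
  refine hcoord_mem_of (fun f : X => tcoord f.1) (fun f => curveHom f.1 f.2) (closure_of _ _) ?_
    (T' := intHomB (marks g (s + 1)) M σ) ?_
    (x₀ := ⟨fun v => σ (PresentedGroup.of v), curveRel_hom σ⟩) hdense
  · rintro _ ⟨v, rfl⟩
    refine ⟨Matrix.of fun p q => MvPolynomial.X (v, p, q), fun f => ?_⟩
    ext p q
    simp [tcoord]
  · rintro y ⟨f, hf, hfc, hfi, hfirr, rfl⟩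
    have : NeZero M := ⟨hMpos.ne'⟩
    refine ⟨⟨f, hf⟩, rfl, curveHom f hf, fun γ p q => ?_, ?_, ?_, rfl⟩
    · have hγ : γ ∈ Subgroup.closure (Set.range (PresentedGroup.of : CGen g (s + 1) → _)) := by
        rw [closure_of]; exact Subgroup.mem_top γ
      refine (mem_inR.1 ((Subgroup.closure_le ((inR (intL M) d).comap (curveHom f hf))).2 ?_ hγ)) p q
      rintro _ ⟨v, rfl⟩
      show curveHom f hf _ ∈ inR (intL M) d
      rw [curveHom_of]
      exact mem_inR.2 fun p q => intL_mono hdiv (hfi v p q)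
    · refine Irred.full fun U hU => hfirr U fun v u hu => ?_
      have := hU (PresentedGroup.of v) u hu
      simpa using this
    · rintro _ ⟨l, rfl⟩
      rw [curveHom_of]
      exact (hzc l).symm.trans (hfc l)

end Vale.Agent.P002
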