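import Vale.Agent.P002.Product.Boundary.Quasi

/-!
Characters of products of curve groups trivial on marked elements.
-/

namespace Vale.Agent.P002

variable {Γ Δ : Type*} [Group Γ] [Group Δ]

/-- Finitely many free generators complementing the marked elements. -/
def FreeAbB (Γ : Type*) [Group Γ] (K : Set Γ) : Prop :=
  ∃ (N : ℕ) (e : Fin N → Γ) (w : Γ → Fin N → ℤ), (∀ γ δ, w (γ * δ) = w γ + w δ) ∧
    (∀ c ∈ K, w c = 0) ∧ (∀ u v, w (e u) v = if u = v then 1 else 0) ∧
    Subgroup.closure (K ∪ Set.range e) = ⊤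

lemma freeAbB_of {K : Set Γ} {N : ℕ} (e : Fin N → Γ) (E : Γ →* Multiplicative (Fin N → ℤ))
    (hK : ∀ c ∈ K, E c = 1) (he : ∀ u, E (e u) = Multiplicative.ofAdd (Pi.single u 1))
    (hcl : Subgroup.closure (K ∪ Set.range e) = ⊤) : FreeAbB Γ K := by
  refine ⟨N, e, fun γ => (E γ).toAdd, fun γ δ => ?_, fun c hc => ?_, fun u v => ?_, hcl⟩
  · show (E (γ * δ)).toAdd = _
    rw [map_mul]; rfl
  · show (E c).toAdd = 0
    rw [hK c hc]; rfl
  · show (E (e u)).toAdd v = _
    rw [he, toAdd_ofAdd, Pi.single_apply]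
    simp only [eq_comm]

/-- Without marks. -/
lemma freeAbB_curve : ∀ g s : ℕ, FreeAbB (CGrp g s) ∅
  | g, 0 => by
    let eF := Fintype.equivFin (CGen g 0)
    refine freeAbB_of (fun k => PresentedGroup.of (eF.symm k))
      (curveHom (fun v => Multiplicative.ofAdd (Pi.single (eF v) 1)) (by simp [curveRel]))
      (fun c hc => (Set.notMem_empty c hc).elim) (fun u => by simp) ?_
    rw [Set.empty_union]
    refine top_unique ((closure_of g 0).ge.trans (Subgroup.closure_mono ?_))
    rintro _ ⟨v, rfl⟩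
    exact ⟨eF v, by simp⟩
  | g, s + 1 => by
    let eF := Fintype.equivFin (CGen g s)
    refine freeAbB_of (fun k => PresentedGroup.of (keep (eF.symm k)))
      (curveHom (extP fun v => Multiplicative.ofAdd (Pi.single (eF v) 1)) (curveRel_extP _))
      (fun c hc => (Set.notMem_empty c hc).elim) (fun u => by simp [extP_keep]) ?_
    rw [Set.empty_union]
    set H := Subgroup.closure (Set.range fun k => (PresentedGroup.of (keep (eF.symm k)) : CGrp g (s + 1)))
    have hk : ∀ v, (PresentedGroup.of (keep v) : CGrp g (s + 1)) ∈ H := fun v =>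
      Subgroup.subset_closure ⟨eF v, by simp⟩
    refine top_unique ((closure_of g (s + 1)).ge.trans ((Subgroup.closure_le _).2 ?_))
    rintro _ ⟨v, rfl⟩
    rcases v with v | j
    · exact hk (.inl v)
    induction j using Fin.lastCases with
    | cast j => exact hk (.inr j)
    | last =>
      have h := curveRel_hom (MonoidHom.id (CGrp g (s + 1)))
      rw [curveRel_succ, mul_eq_one_iff_inv_eq] at h
      simp only [MonoidHom.id_apply] at h
      show PresentedGroup.of _ ∈ H
      rw [← h]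
      refine inv_mem (mul_mem (list_prod_mem fun y hy => ?_) (list_prod_mem fun y hy => ?_))
      · obtain ⟨i, rfl⟩ := (List.mem_ofFn' _ _).1 hy
        exact mul_mem (mul_mem (mul_mem (hk (.inl (i, false))) (hk (.inl (i, true))))
          (inv_mem (hk (.inl (i, false))))) (inv_mem (hk (.inl (i, true))))
      · obtain ⟨i, rfl⟩ := (List.mem_ofFn' _ _).1 hy
        exact hk (.inr i)

/-- With all punctures marked. -/
lemma freeAbB_marks (g s : ℕ) :
    FreeAbB (CGrp g s) (Set.range fun l => PresentedGroup.of (Sum.inr l)) := by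
  let eF := Fintype.equivFin (Fin g × Bool)
  refine freeAbB_of (fun k => PresentedGroup.of (Sum.inl (eF.symm k)))
    (curveHom (Sum.elim (fun w => Multiplicative.ofAdd (Pi.single (eF w) 1)) fun _ => 1)
      (by simp [curveRel]))
    (by rintro _ ⟨l, rfl⟩; simp) (fun u => by simp) ?_
  refine top_unique ((closure_of g s).ge.trans (Subgroup.closure_mono ?_))
  rintro _ ⟨v, rfl⟩
  rcases v with v | j
  · exact Or.inr ⟨eF v, by simp⟩
  · exact Or.inl ⟨j, rfl⟩

lemma FreeAbB.of_equiv {K : Set Γ} (h : FreeAbB Γ K) (e : Δ ≃* Γ) {K' : Set Δ}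
    (hK : ∀ δ, δ ∈ K' ↔ e δ ∈ K) : FreeAbB Δ K' := by
  obtain ⟨N, el, w, hw, hwK, hwe, hcl⟩ := h
  refine ⟨N, fun v => e.symm (el v), fun δ => w (e δ), fun γ δ => by simp [hw],
    fun c hc => hwK _ ((hK c).1 hc), fun u v => by simpa using hwe u v, ?_⟩
  refine eq_top_iff.2 fun δ _ => ?_
  have hδ : e δ ∈ Subgroup.closure (K ∪ Set.range el) := hcl ▸ Subgroup.mem_top _
  have h1 : Subgroup.closure (K ∪ Set.range el) ≤
      (Subgroup.closure (K' ∪ Set.range fun v => e.symm (el v))).comap e.symm.toMonoidHom := by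
    refine (Subgroup.closure_le _).2 ?_
    rintro x (hx | ⟨v, rfl⟩)
    · refine Subgroup.subset_closure (Or.inl ?_)
      show e.symm x ∈ K'
      rw [hK, e.apply_symm_apply]
      exact hx
    · exact Subgroup.subset_closure (Or.inr ⟨v, rfl⟩)
  simpa using h1 hδ

lemma FreeAbB.prod {K : Set Γ} {L : Set Δ} (hG : FreeAbB Γ K) (hH : FreeAbB Δ L) :
    FreeAbB (Γ × Δ) ((fun c => (c, 1)) '' K ∪ (fun c => (1, c)) '' L) := by
  obtain ⟨N, e, w, hw, hwK, hwe, hcl⟩ := hG
  obtain ⟨N', e', w', hw', hwK', hwe', hcl'⟩ := hH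
  have hw0 : w 1 = 0 := by simpa using hw 1 1
  have hw0' : w' 1 = 0 := by simpa using hw' 1 1
  refine ⟨N + N', Fin.append (fun v => (e v, 1)) (fun v => (1, e' v)),
    fun γ => Fin.append (w γ.1) (w' γ.2), fun γ δ => ?_, ?_, fun u v => ?_, ?_⟩
  · funext v
    refine Fin.addCases (fun i => ?_) (fun i => ?_) v <;> simp [hw, hw']
  · rintro _ (⟨c, hc, rfl⟩ | ⟨c, hc, rfl⟩) <;> funext v <;>
      refine Fin.addCases (fun i => ?_) (fun i => ?_) v <;>
      simp [hwK _, hwK' _, hc, hw0, hw0']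
  · refine Fin.addCases (fun i => ?_) (fun i => ?_) u <;>
      refine Fin.addCases (fun j => ?_) (fun j => ?_) v <;>
      simp [hwe, hwe', hw0, hw0', Fin.ext_iff] <;> omega
  · refine eq_top_iff.2 fun γ _ => ?_
    set H := Subgroup.closure ((fun c : Γ => (c, (1 : Δ))) '' K ∪ (fun c : Δ => ((1 : Γ), c)) '' L ∪
      Set.range (Fin.append (fun v => (e v, (1 : Δ))) (fun v => ((1 : Γ), e' v))))
    have h1 : Subgroup.closure (K ∪ Set.range e) ≤ H.comap (MonoidHom.inl Γ Δ) := by
      refine (Subgroup.closure_le _).2 ?_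
      rintro x (hx | ⟨v, rfl⟩)
      · exact Subgroup.subset_closure (Or.inl (Or.inl ⟨x, hx, rfl⟩))
      · exact Subgroup.subset_closure (Or.inr ⟨Fin.castAdd N' v, by simp⟩)
    have h2 : Subgroup.closure (L ∪ Set.range e') ≤ H.comap (MonoidHom.inr Γ Δ) := by
      refine (Subgroup.closure_le _).2 ?_
      rintro x (hx | ⟨v, rfl⟩)
      · exact Subgroup.subset_closure (Or.inl (Or.inr ⟨x, hx, rfl⟩))
      · exact Subgroup.subset_closure (Or.inr ⟨Fin.natAdd N v, by simp⟩)
    have e1 := h1 (hcl ▸ Subgroup.mem_top γ.1)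
    have e2 := h2 (hcl' ▸ Subgroup.mem_top γ.2)
    rw [Subgroup.mem_comap] at e1 e2
    have := mul_mem e1 e2
    simpa using this

end Vale.Agent.P002
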