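import Vale.Agent.P002.Product.Decomp

/-!
Semisimple homomorphisms to `SL_r` are exactly the conjugates of block diagonal ones with
irreducible blocks.
-/

namespace Vale.Agent.P002

open Matrix

variable {r k : ℕ} {Γ : Type*} [Group Γ]

/-- Every invariant subspace has an invariant complement. -/
def SemiH (ρ : Γ →* SLC r) : Prop :=
  ∀ U : Submodule ℂ (Fin r → ℂ), (∀ γ, ∀ u ∈ U, (ρ γ).val *ᵥ u ∈ U) →
    ∃ U', (∀ γ, ∀ u ∈ U', (ρ γ).val *ᵥ u ∈ U') ∧ IsCompl U U'

lemma conjU_comp_comp (V W : (Mat r)ˣ) (ρ : Γ →* SLC r) :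
    (P002.conjU V).comp ((P002.conjU W).comp ρ) = (P002.conjU (V * W)).comp ρ :=
  MonoidHom.ext fun γ => Subtype.ext <| by
    simp only [MonoidHom.comp_apply, conjU_val, Units.val_mul, _root_.mul_inv_rev, mul_assoc]

lemma conjU_one_comp (ρ : Γ →* SLC r) : (P002.conjU 1).comp ρ = ρ :=
  MonoidHom.ext fun γ => Subtype.ext <| by
    simp [MonoidHom.comp_apply, conjU_val]

/-- Multiplication of column vectors by an invertible matrix. -/
noncomputable def vecEquiv (V : (Mat r)ˣ) : (Fin r → ℂ) ≃ₗ[ℂ] (Fin r → ℂ) :=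
  LinearEquiv.ofLinear (Matrix.mulVecLin V.val) (Matrix.mulVecLin V⁻¹.val)
    (by rw [← Matrix.mulVecLin_mul, Units.mul_inv, Matrix.mulVecLin_one])
    (by rw [← Matrix.mulVecLin_mul, Units.inv_mul, Matrix.mulVecLin_one])

lemma SemiH.conjU {ρ : Γ →* SLC r} (h : SemiH ρ) (V : (Mat r)ˣ) :
    SemiH ((P002.conjU V).comp ρ) := by
  intro U hU
  set e := vecEquiv V
  have hval : ∀ γ x, (((P002.conjU V).comp ρ) γ).val *ᵥ e x = e ((ρ γ).val *ᵥ x) := fun γ x => by
    show (((P002.conjU V).comp ρ) γ).val *ᵥ (V.val *ᵥ x) = V.val *ᵥ ((ρ γ).val *ᵥ x)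
    rw [MonoidHom.comp_apply, conjU_val, Matrix.mulVec_mulVec, Matrix.mulVec_mulVec, mul_assoc,
      Units.inv_mul, mul_one]
  obtain ⟨U', hU', hc⟩ := h (U.comap e.toLinearMap) fun γ u hu => by
    show e _ ∈ U
    rw [← hval]
    exact hU γ _ hu
  refine ⟨U'.map e.toLinearMap, ?_, ?_⟩
  · rintro γ _ ⟨u, hu, rfl⟩
    exact ⟨_, hU' γ u hu, (hval γ u).symm⟩
  · have := (Submodule.orderIsoMapComap e).isCompl hc
    rwa [Submodule.orderIsoMapComap_apply, Submodule.orderIsoMapComap_apply,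
      Submodule.map_comap_eq_of_surjective e.surjective] at this

/-- A block of a semisimple homomorphism with a proper invariant subspace splits, after
conjugation. -/
lemma split_semi {blk : Fin r → Fin k} (hsurj : Function.Surjective blk) {σ : Γ →* SLC r}
    (hss : SemiH σ) (hBD : ∀ γ, BD blk (σ γ).val) {j : Fin k} {U : Submodule ℂ (Fin r → ℂ)}
    (hU0 : U ≠ ⊥) (hsupp : ∀ u ∈ U, ∀ a, blk a ≠ j → u a = 0)
    (hlt : ∃ w : Fin r → ℂ, (∀ a, blk a ≠ j → w a = 0) ∧ w ∉ U)
    (hinv : ∀ γ, ∀ u ∈ U, (σ γ).val *ᵥ u ∈ U) :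
    ∃ blk' : Fin r → Fin (k + 1), Function.Surjective blk' ∧ ∃ V : (Mat r)ˣ,
      ∀ γ, BD blk' (((P002.conjU V).comp σ) γ).val := by
  classical
  obtain ⟨M, T, hTne, hTj, ⟨a₀, ha₀, ha₀T⟩, hM, hMU, hUM⟩ := exists_adapted hU0 hsupp hlt
  set ρ := (P002.conjU M⁻¹).comp σ with hρdef
  have hg : ∀ γ, (ρ γ).val = M⁻¹.val * (σ γ).val * M.val := fun γ => by
    rw [hρdef, MonoidHom.comp_apply, conjU_val, inv_inv]
  have hρBD : ∀ γ, BD blk (ρ γ).val := fun γ => by
    rw [hg]; exact ((hM.inv).mul (hBD γ)).mul hM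
  have hTri : ∀ γ, Tri T (ρ γ).val := fun γ a b ha hb => by
    obtain ⟨y, hy, hyv⟩ := hUM _ (hinv γ _ (hMU b hb))
    have h1 : (ρ γ).val *ᵥ Pi.single b 1 = y := by
      rw [hg, ← Matrix.mulVec_mulVec, ← Matrix.mulVec_mulVec, ← hyv, Matrix.mulVec_mulVec,
        M.inv_mul, Matrix.one_mulVec]
    have h2 := congrFun h1 a
    rw [Matrix.mulVec_single_one, hy a ha] at h2
    exact h2
  -- the coordinate subspace of `T`, its complement and the projection
  let S : Submodule ℂ (Fin r → ℂ) :=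
    { carrier := {x | ∀ a, a ∉ T → x a = 0}
      add_mem' := fun hx hy a ha => by simp [hx a ha, hy a ha]
      zero_mem' := fun a _ => rfl
      smul_mem' := fun c x hx a ha => by simp [hx a ha] }
  obtain ⟨S', hS', hc⟩ := hss.conjU M⁻¹ S fun γ u hu a ha => by
    show ∑ b, (ρ γ).val a b * u b = 0
    refine Finset.sum_eq_zero fun b _ => ?_
    by_cases hb : b ∈ T
    · rw [hTri γ a b ha hb, zero_mul]
    · rw [hu b hb, mul_zero]
  let π := S.projection S' hc
  let E : Mat r := LinearMap.toMatrix' π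
  let P : Mat r := Matrix.diagonal fun a => if a ∈ T then 1 else 0
  have hEv : ∀ x, E *ᵥ x = π x := fun x => LinearMap.toMatrix'_mulVec _ _
  have hPv : ∀ x a, (P *ᵥ x) a = if a ∈ T then x a else 0 := fun x a => by
    simp only [P, Matrix.mulVec_diagonal]
    split_ifs <;> simp
  have hfix : ∀ x ∈ S, π x = x := fun x hx =>
    Submodule.projection_apply_left hc ⟨x, hx⟩
  have hπS : ∀ x, π x ∈ S := fun x => Submodule.projection_apply_mem hc x
  have hext : ∀ A B : Mat r, (∀ x, A *ᵥ x = B *ᵥ x) → A = B := fun A B h =>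
    Matrix.ext_iff_mulVec.2 h
  have hEE : E * E = E := hext _ _ fun x => by
    rw [← Matrix.mulVec_mulVec, hEv, hEv, hfix _ (hπS x)]
  have hEP : E * P = P := hext _ _ fun x => by
    rw [← Matrix.mulVec_mulVec, hEv]
    exact hfix _ fun a ha => by rw [hPv, if_neg ha]
  have hPE : P * E = E := hext _ _ fun x => by
    rw [← Matrix.mulVec_mulVec, hEv]
    funext a
    rw [hPv]
    split_ifs with ha
    · rfl
    · exact (hπS x a ha).symm
  have hPP : P * P = P := by simp [P, Matrix.diagonal_mul_diagonal]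
  have hcomm : ∀ γ, E * (ρ γ).val = (ρ γ).val * E := fun γ => hext _ _ fun x => by
    rw [← Matrix.mulVec_mulVec, ← Matrix.mulVec_mulVec, hEv, hEv]
    obtain ⟨u, hu, v, hv, rfl⟩ :=
      Submodule.mem_sup.1 (hc.sup_eq_top.symm ▸ Submodule.mem_top : x ∈ S ⊔ S')
    have huS : (ρ γ).val *ᵥ u ∈ S := fun a ha => by
      show ∑ b, (ρ γ).val a b * u b = 0
      refine Finset.sum_eq_zero fun b _ => ?_
      by_cases hb : b ∈ T
      · rw [hTri γ a b ha hb, zero_mul]
      · rw [hu b hb, mul_zero]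
    have h0 : ∀ y ∈ S', π y = 0 := fun y hy => (Submodule.projection_apply_eq_zero_iff hc).2 hy
    rw [Matrix.mulVec_add, map_add, map_add, hfix _ huS, hfix _ hu, h0 v hv,
      h0 _ (hS' γ v hv), add_zero, add_zero]
  let V₁ : (Mat r)ˣ :=
    { val := E + (1 - P)
      inv := P + (1 - E)
      val_inv := by
        simp only [add_mul, mul_add, mul_sub, sub_mul, mul_one, one_mul, hEE, hEP, hPE, hPP]
        abel
      inv_val := by
        simp only [add_mul, mul_add, mul_sub, sub_mul, mul_one, one_mul, hEE, hEP, hPE, hPP]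
        abel }
  have hD : ∀ γ, scaleS T 0 (ρ γ).val * V₁.val = V₁.val * (ρ γ).val := fun γ => by
    set g := (ρ γ).val with hgdef
    have hPg : P * g * P = g * P := by
      ext a b
      simp only [P, Matrix.mul_diagonal, Matrix.diagonal_mul]
      by_cases ha : a ∈ T <;> by_cases hb : b ∈ T <;> simp [ha, hb]
      exact (hTri γ a b ha hb).symm
    have hD' : scaleS T 0 g = P * g * P + (1 - P) * g := by
      rw [sub_mul, one_mul]
      ext a b
      simp only [P, scaleS, Matrix.of_apply, Matrix.add_apply, Matrix.sub_apply,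
        Matrix.mul_diagonal, Matrix.diagonal_mul]
      by_cases ha : a ∈ T <;> by_cases hb : b ∈ T <;> simp [ha, hb]
    have hgE : g * P * E = g * E := by rw [mul_assoc, hPE]
    have hPgE : P * g * E = g * E := by
      rw [← hPE, ← mul_assoc, ← mul_assoc, hPg]
    show scaleS T 0 g * (E + (1 - P)) = (E + (1 - P)) * g
    rw [hD', hPg]
    have hcg : E * g = g * E := hcomm γ
    simp only [add_mul, mul_add, mul_sub, sub_mul, one_mul, mul_one, hgE, hPgE, hPg,
      hcg, mul_assoc g P P, hPP]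
    abel
  refine ⟨fun a => if a ∈ T then Fin.last k else (blk a).castSucc, fun i => ?_, V₁ * M⁻¹,
    fun γ a b hab => ?_⟩
  · induction i using Fin.lastCases with
    | last => exact ⟨hTne.choose, if_pos hTne.choose_spec⟩
    | cast i =>
      by_cases hij : i = j
      · exact ⟨a₀, by simp only [if_neg ha₀T, ha₀, hij]⟩
      · obtain ⟨a, ha⟩ := hsurj i
        refine ⟨a, ?_⟩
        simp only [if_neg fun h => hij (ha.symm.trans (mem_blkSet.1 (hTj h))), ha]
  · rw [← conjU_comp_comp, MonoidHom.comp_apply, conjU_val, ← hρdef, ← hD γ, mul_assoc,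
      Units.mul_inv, mul_one, scaleS, Matrix.of_apply]
    by_cases ha : a ∈ T <;> by_cases hb : b ∈ T
    · exact absurd (by simp [ha, hb]) hab
    · simp [ha, hb]
    · simp [ha, hb, hTri γ a b ha hb]
    · simp only [ha, hb, if_false, false_and]
      exact hρBD γ a b fun h => hab (by simp [ha, hb, h])

lemma split_semi_rec (d : ℕ) : ∀ (k : ℕ) (blk : Fin r → Fin k), r - k = d →
    Function.Surjective blk → ∀ ρ : Γ →* SLC r, SemiH ρ → (∀ γ, BD blk (ρ γ).val) →
      ∃ (k' : ℕ) (blk' : Fin r → Fin k') (V : (Mat r)ˣ), Function.Surjective blk' ∧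
        (∀ γ, BD blk' (((P002.conjU V).comp ρ) γ).val) ∧
          HIrredBlocks blk' ((P002.conjU V).comp ρ) := by
  induction d using Nat.strong_induction_on with
  | _ d ih =>
    intro k blk hd hsurj ρ hss hBD
    by_cases hirr : HIrredBlocks blk ρ
    · exact ⟨k, blk, 1, hsurj, by simpa only [conjU_one_comp] using hBD,
        by rwa [conjU_one_comp]⟩
    simp only [HIrredBlocks, not_forall] at hirr
    obtain ⟨j, U, hU0, hsupp, hinv, w, hw, hwU⟩ := hirr
    obtain ⟨blk', hsurj', V, hBD'⟩ := split_semi hsurj hss hBD hU0 hsupp ⟨w, hw, hwU⟩ hinv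
    have := card_le_of_surjective hsurj'
    obtain ⟨k'', blk'', W, h1, h2, h3⟩ :=
      ih (r - (k + 1)) (by omega) (k + 1) blk' rfl hsurj' _ (hss.conjU V) hBD'
    rw [conjU_comp_comp] at h2 h3
    exact ⟨k'', blk'', W * V, h1, h2, h3⟩

/-- A semisimple homomorphism is conjugate to a block diagonal one with irreducible blocks. -/
theorem exists_irred_blocks_of_semi [NeZero r] (ρ : Γ →* SLC r)
    (hss : ∀ U : Submodule ℂ (Fin r → ℂ), (∀ γ, ∀ u ∈ U, (ρ γ).val *ᵥ u ∈ U) →
      ∃ U', (∀ γ, ∀ u ∈ U', (ρ γ).val *ᵥ u ∈ U') ∧ IsCompl U U') :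
    ∃ (k : ℕ) (blk : Fin r → Fin k) (V : (Mat r)ˣ), Function.Surjective blk ∧
      (∀ γ, BD blk (((P002.conjU V).comp ρ) γ).val) ∧
        HIrredBlocks blk ((P002.conjU V).comp ρ) :=
  split_semi_rec (r - 1) 1 (fun _ => 0) rfl (fun _ => ⟨0, Subsingleton.elim _ _⟩) ρ hss
    fun _ _ _ h => absurd rfl h

/-- A block diagonal homomorphism with irreducible blocks is semisimple. -/
theorem semi_of_irred_blocks [NeZero r] {blk : Fin r → Fin k} {ρ : Γ →* SLC r}
    (hBD : ∀ γ, BD blk (ρ γ).val) (hirr : HIrredBlocks blk ρ) :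
    ∀ U : Submodule ℂ (Fin r → ℂ), (∀ γ, ∀ u ∈ U, (ρ γ).val *ᵥ u ∈ U) →
      ∃ U', (∀ γ, ∀ u ∈ U', (ρ γ).val *ᵥ u ∈ U') ∧ IsCompl U U' := by
  classical
  intro U hU
  let W : Fin k → Submodule ℂ (Fin r → ℂ) := fun j =>
    { carrier := {x | ∀ a, blk a ≠ j → x a = 0}
      add_mem' := fun hx hy a ha => by simp [hx a ha, hy a ha]
      zero_mem' := fun a _ => rfl
      smul_mem' := fun c x hx a ha => by simp [hx a ha] }
  let Inv : Submodule ℂ (Fin r → ℂ) → Prop := fun X => ∀ γ, ∀ u ∈ X, (ρ γ).val *ᵥ u ∈ X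
  have hsup : ∀ X Y, Inv X → Inv Y → Inv (X ⊔ Y) := fun X Y hX hY γ u hu => by
    obtain ⟨x, hx, y, hy, rfl⟩ := Submodule.mem_sup.1 hu
    rw [Matrix.mulVec_add]
    exact Submodule.mem_sup.2 ⟨_, hX γ x hx, _, hY γ y hy, rfl⟩
  have hW : ∀ j, Inv (W j) := fun j γ u hu a ha => by
    show ∑ b, (ρ γ).val a b * u b = 0
    refine Finset.sum_eq_zero fun b _ => ?_
    by_cases hb : blk b = j
    · rw [hBD γ a b (hb ▸ ha), zero_mul]
    · rw [hu b hb, mul_zero]
  have hWS : ∀ s : Finset (Fin k), Inv (s.sup W) := fun s => by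
    refine Finset.sup_induction ?_ (fun X hX Y hY => hsup X Y hX hY) fun j _ => hW j
    intro γ u hu
    rw [Submodule.mem_bot] at hu ⊢
    rw [hu, Matrix.mulVec_zero]
  obtain ⟨s, hs, hmax⟩ := (Finset.univ.filter fun s : Finset (Fin k) => Disjoint U (s.sup W))
    |>.exists_max_image Finset.card ⟨∅, Finset.mem_filter.2 ⟨Finset.mem_univ _, by simp⟩⟩
  rw [Finset.mem_filter] at hs
  refine ⟨s.sup W, hWS s, hs.2, codisjoint_iff.2 (eq_top_iff.2 fun x _ => ?_)⟩
  have hle : ∀ j, W j ≤ U ⊔ s.sup W := by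
    intro j
    by_cases h0 : W j ⊓ (U ⊔ s.sup W) = ⊥
    · by_contra hj
      have hjs : j ∉ s := fun h => hj ((Finset.le_sup h).trans le_sup_right)
      have hd : Disjoint U ((insert j s).sup W) := by
        rw [Finset.sup_insert, sup_comm]
        exact hs.2.disjoint_sup_right_of_disjoint_sup_left
          (disjoint_iff.2 (by rw [inf_comm]; exact h0))
      have := hmax _ (Finset.mem_filter.2 ⟨Finset.mem_univ _, hd⟩)
      rw [Finset.card_insert_of_notMem hjs] at this
      omega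
    · intro w hw
      exact (hirr j _ h0 (fun u hu => hu.1)
        (fun γ u hu => ⟨hW j γ u hu.1, hsup _ _ hU (hWS s) γ u hu.2⟩) w hw).2
  have hx : x = ∑ j : Fin k, fun a => if blk a = j then x a else 0 := by
    funext a
    rw [Finset.sum_apply, Finset.sum_ite_eq]
    simp
  rw [hx]
  refine Submodule.sum_mem _ fun j _ => hle j fun a ha => if_neg ha

end Vale.Agent.P002
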