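import Vale.Agent.P002.Product.Boundary.Quasi
import Vale.Agent.P002.Product.Tensor

/-!
The twisting property with marked classes passes to products.
-/

namespace Vale.Agent.P002

open Matrix MvPolynomial
open scoped Kronecker

variable {G H : Type*} [Group G] [Group H] {a b d : ℕ}

lemma kron_mulVec (e : Fin b × Fin a ≃ Fin d) (B : Mat b) (A : Mat a) (y : Fin b → ℂ)
    (x : Fin a → ℂ) :
    Matrix.reindex e e (B ⊗ₖ A) *ᵥ (fun q => y (e.symm q).1 * x (e.symm q).2) =
      fun q => (B *ᵥ y) (e.symm q).1 * (A *ᵥ x) (e.symm q).2 := by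
  funext q
  simp only [Matrix.mulVec, dotProduct]
  rw [← e.sum_comp, Fintype.sum_prod_type, Finset.sum_mul_sum]
  refine Finset.sum_congr rfl fun i _ => Finset.sum_congr rfl fun j _ => ?_
  simp only [Matrix.reindex_apply, Matrix.submatrix_apply, Equiv.symm_apply_apply,
    Matrix.kroneckerMap_apply]
  ring

/-- Tensor factors of quasi-unipotent matrices are quasi-unipotent. -/
lemma quasi_factors {N : ℕ} (e : Fin b × Fin a ≃ Fin d) [NeZero a] [NeZero b] :
    (∀ A : Mat a, Quasi N (Matrix.reindex e e ((1 : Mat b) ⊗ₖ A)) → Quasi N A) ∧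
      ∀ B : Mat b, Quasi N (Matrix.reindex e e (B ⊗ₖ (1 : Mat a))) → Quasi N B := by
  constructor
  · intro A h μ x hx he
    refine h μ (fun q => (1 : Fin b → ℂ) (e.symm q).1 * x (e.symm q).2) (fun h0 => hx ?_) ?_
    · funext j
      simpa using congrFun h0 (e (0, j))
    · rw [kron_mulVec, Matrix.one_mulVec, he]
      funext q
      simp
  · intro B h μ y hy he
    refine h μ (fun q => y (e.symm q).1 * (1 : Fin a → ℂ) (e.symm q).2) (fun h0 => hy ?_) ?_
    · funext i
      simpa using congrFun h0 (e (i, 0))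
    · rw [kron_mulVec, Matrix.one_mulVec, he]
      funext q
      simp

/-- Tensors of spanning families span. -/
lemma span_kron {κ κ' : Type*} (e : Fin b × Fin a ≃ Fin d) {A : κ → Mat a} {B : κ' → Mat b}
    (hA : Submodule.span ℂ (Set.range A) = ⊤) (hB : Submodule.span ℂ (Set.range B) = ⊤) :
    Submodule.span ℂ (Set.range fun v : κ × κ' => Matrix.reindex e e (B v.2 ⊗ₖ A v.1)) = ⊤ := by
  set W := Submodule.span ℂ (Set.range fun v : κ × κ' => Matrix.reindex e e (B v.2 ⊗ₖ A v.1))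
  let f := Matrix.reindexLinearEquiv ℂ ℂ e e
  have h1 : ∀ (k' : κ') (X : Mat a), f (B k' ⊗ₖ X) ∈ W := fun k' X => by
    have hX : X ∈ Submodule.span ℂ (Set.range A) := hA ▸ Submodule.mem_top
    induction hX using Submodule.span_induction with
    | mem x hx =>
      obtain ⟨k, rfl⟩ := hx
      exact Submodule.subset_span ⟨(k, k'), rfl⟩
    | zero => simp
    | add x y _ _ hx hy => rw [Matrix.kronecker_add, map_add]; exact add_mem hx hy
    | smul c x _ hx => rw [Matrix.kronecker_smul, map_smul]; exact W.smul_mem _ hx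
  have h2 : ∀ (Y : Mat b) (X : Mat a), f (Y ⊗ₖ X) ∈ W := fun Y X => by
    have hY : Y ∈ Submodule.span ℂ (Set.range B) := hB ▸ Submodule.mem_top
    induction hY using Submodule.span_induction with
    | mem x hx =>
      obtain ⟨k, rfl⟩ := hx
      exact h1 k X
    | zero => simp
    | add x y _ _ hx hy => rw [Matrix.add_kronecker, map_add]; exact add_mem hx hy
    | smul c x _ hx => rw [Matrix.smul_kronecker, map_smul]; exact W.smul_mem _ hx
  refine eq_top_iff.2 fun X _ => ?_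
  rw [Matrix.matrix_eq_sum_single X]
  refine W.sum_mem fun p _ => W.sum_mem fun q _ => ?_
  have hs : Matrix.single p q (X p q) =
      f (Matrix.single (e.symm p).1 (e.symm q).1 (X p q) ⊗ₖ
        Matrix.single (e.symm p).2 (e.symm q).2 (1 : ℂ)) := by
    ext i j
    simp only [f, Matrix.reindexLinearEquiv_apply, Matrix.reindex_apply, Matrix.submatrix_apply,
      Matrix.kroneckerMap_apply, Matrix.single_apply]
    rw [← ite_and_mul_ite_eq]
  rw [hs]
  exact h2 _ _
where
  ite_and_mul_ite_eq {x : ℂ} {p q i j : Fin d} :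
      ((if (e.symm p).1 = (e.symm i).1 ∧ (e.symm q).1 = (e.symm j).1 then x else 0) *
        if (e.symm p).2 = (e.symm i).2 ∧ (e.symm q).2 = (e.symm j).2 then (1 : ℂ) else 0) =
      if p = i ∧ q = j then x else 0 := by
    have hp : p = i ↔ (e.symm p).1 = (e.symm i).1 ∧ (e.symm p).2 = (e.symm i).2 :=
      ⟨fun h => by subst h; exact ⟨rfl, rfl⟩, fun h => e.symm.injective (Prod.ext h.1 h.2)⟩
    have hq : q = j ↔ (e.symm q).1 = (e.symm j).1 ∧ (e.symm q).2 = (e.symm j).2 :=
      ⟨fun h => by subst h; exact ⟨rfl, rfl⟩, fun h => e.symm.injective (Prod.ext h.1 h.2)⟩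
    simp only [hp, hq]
    split_ifs <;> simp_all

/-- The tensor product of homomorphisms to special linear groups. -/
noncomputable def tensorHom (e : Fin b × Fin a ≃ Fin d) (τB : H →* SLC b) (τA : G →* SLC a) :
    G × H →* SLC d :=
  (kronSL e).comp ((τB.comp (MonoidHom.snd G H)).prod (τA.comp (MonoidHom.fst G H)))

lemma tensorHom_apply (e : Fin b × Fin a ≃ Fin d) (τB : H →* SLC b) (τA : G →* SLC a)
    (γ : G × H) : tensorHom e τB τA γ = kronSL e (τB γ.2, τA γ.1) := rfl

lemma tensorHom_mem {MA MB : ℕ} [NeZero (MA * MB)] (e : Fin b × Fin a ≃ Fin d) {KG : Set G}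
    {KH : Set H} {σB : H →* SLC b} {σA : G →* SLC a} {τB : H →* SLC b} {τA : G →* SLC a}
    (hB1 : ∀ h p q, (τB h).val p q ∈ intL MB) (hA1 : ∀ g p q, (τA g).val p q ∈ intL MA)
    (hB2 : Full fun h => (τB h).val) (hA2 : Full fun g => (τA g).val)
    (hB3 : ∀ c ∈ KH, IsConj (σB c) (τB c)) (hA3 : ∀ c ∈ KG, IsConj (σA c) (τA c)) :
    hcoord (tensorHom e τB τA) ∈ intHomB
      ((fun c => (c, 1)) '' KG ∪ (fun c => (1, c)) '' KH) (MA * MB) (tensorHom e σB σA) := by
  refine ⟨tensorHom e τB τA, fun γ p q => ?_, ?_, ?_, rfl⟩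
  · rw [tensorHom_apply]
    exact mul_mem (intL_mono (Dvd.intro_left _ rfl) (hB1 _ _ _))
      (intL_mono (Dvd.intro _ rfl) (hA1 _ _ _))
  · let fA : G →* Mat a :=
      { toFun := fun g => (τA g).val, map_one' := by simp, map_mul' := fun x y => by simp }
    let fB : H →* Mat b :=
      { toFun := fun h => (τB h).val, map_one' := by simp, map_mul' := fun x y => by simp }
    have h := span_kron e (span_range_hom fA hA2) (span_range_hom fB hB2)
    exact full_of_span (f := fun v : G × H => (tensorHom e τB τA v).val) h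
  · rintro _ (⟨c, hc, rfl⟩ | ⟨c, hc, rfl⟩)
    · rw [tensorHom_apply, tensorHom_apply]
      refine (kronSL e).map_isConj ?_
      obtain ⟨u, hu⟩ := isConj_iff.1 (hA3 c hc)
      exact isConj_iff.2 ⟨((1 : SLC b), u), Prod.ext (by simp) (by simpa using hu)⟩
    · rw [tensorHom_apply, tensorHom_apply]
      refine (kronSL e).map_isConj ?_
      obtain ⟨u, hu⟩ := isConj_iff.1 (hB3 c hc)
      exact isConj_iff.2 ⟨(u, (1 : SLC a)), Prod.ext (by simpa using hu) (by simp)⟩

/-- The twisting property with classes passes to products. -/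
theorem TwistedB.prod {KG : Set G} {KH : Set H} (hG : TwistedB G KG) (hH : TwistedB H KH) :
    TwistedB (G × H) ((fun c => (c, 1)) '' KG ∪ (fun c => (1, c)) '' KH) := by
  intro R N hN
  obtain ⟨MA, hMA, hGM⟩ := hG R N hN
  obtain ⟨MB, hMB, hHM⟩ := hH R N hN
  refine ⟨MA * MB, Nat.mul_pos hMA hMB, fun d _ hdR ρ hirr hq => ?_⟩
  have : NeZero (MA * MB) := ⟨(Nat.mul_pos hMA hMB).ne'⟩
  obtain ⟨a, b, e, V, A, B, ha, hb, hA, hB, hρ⟩ := exists_tensor ρ hirr
  have : NeZero a := ⟨ha.ne'⟩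
  have : NeZero b := ⟨hb.ne'⟩
  have hba : b * a = d := by simpa using Fintype.card_congr e
  have haR : a ≤ R := le_trans (le_trans (Nat.le_mul_of_pos_left a hb) hba.le) hdR
  have hbR : b ≤ R := le_trans (le_trans (Nat.le_mul_of_pos_right b ha) hba.le) hdR
  have hqA : ∀ c ∈ KG, Quasi N (A c).val := fun c hc => by
    refine (quasi_factors (b := b) e).1 _ ((hq (c, 1) (Or.inl ⟨c, hc, rfl⟩)).conj V⁻¹ ?_)
    rw [hρ, map_one, Units.val_one, inv_inv]
    simp [← mul_assoc]
  have hqB : ∀ c ∈ KH, Quasi N (B c).val := fun c hc => by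
    refine (quasi_factors (a := a) e).2 _ ((hq (1, c) (Or.inr ⟨c, hc, rfl⟩)).conj V⁻¹ ?_)
    rw [hρ, map_one, Units.val_one, inv_inv]
    simp [← mul_assoc]
  obtain ⟨χA, σA, UA, hσA, hA'⟩ := hGM a haR A hA hqA
  obtain ⟨χB, σB, UB, hσB, hB'⟩ := hHM b hbR B hB hqB
  let S := Matrix.reindexAlgEquiv ℂ ℂ e
  let K : (Mat d)ˣ :=
    ⟨S (UB.val ⊗ₖ UA.val), S (UB⁻¹.val ⊗ₖ UA⁻¹.val),
      by rw [← map_mul, ← Matrix.mul_kronecker_mul, Units.mul_inv, Units.mul_inv,
        Matrix.one_kronecker_one, map_one],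
      by rw [← map_mul, ← Matrix.mul_kronecker_mul, Units.inv_mul, Units.inv_mul,
        Matrix.one_kronecker_one, map_one]⟩
  refine ⟨χA.comp (MonoidHom.fst G H) * χB.comp (MonoidHom.snd G H), tensorHom e σB σA, V * K, ?_,
    fun γ => ?_⟩
  · let q : (G × H) × Fin d × Fin d →
        MvPolynomial ((H × Fin b × Fin b) ⊕ (G × Fin a × Fin a)) ℂ := fun v =>
      X (Sum.inl (v.1.2, (e.symm v.2.1).1, (e.symm v.2.2).1)) *
        X (Sum.inr (v.1.1, (e.symm v.2.1).2, (e.symm v.2.2).2))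
    have hq' : ∀ (τB : H →* SLC b) (τA : G →* SLC a), (fun v => eval (Sum.elim (hcoord τB) (hcoord τA)) (q v)) =
        hcoord (tensorHom e τB τA) := fun τB τA => funext fun v => by
      simp only [q, map_mul, eval_X, Sum.elim_inl, Sum.elim_inr]
      rfl
    rw [← hq']
    refine polyCl_map q (fun y hy => ?_) (polyCl_sum hσB hσA)
    obtain ⟨_, ⟨τB, hB1, hB2, hB3, rfl⟩, _, ⟨τA, hA1, hA2, hA3, rfl⟩, rfl⟩ := hy
    rw [hq']
    exact subset_polyCl _ (tensorHom_mem e hB1 hA1 hB2 hA2 hB3 hA3)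
  · obtain ⟨g, h⟩ := γ
    rw [hρ, hA', hB', Matrix.smul_kronecker, Matrix.kronecker_smul, smul_smul,
      Matrix.mul_kronecker_mul, Matrix.mul_kronecker_mul]
    show V.val * S ((_ : ℂ) • _) * V⁻¹.val = _
    rw [map_smul, map_mul, map_mul, mul_smul_comm, smul_mul_assoc]
    simp only [MonoidHom.mul_apply, MonoidHom.coe_comp, Function.comp_apply, MonoidHom.coe_fst,
      MonoidHom.coe_snd, Units.val_mul, _root_.mul_inv_rev, mul_comm (χB h : ℂ), mul_assoc]
    rfl

end Vale.Agent.P002
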