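import Vale.Agent.P002.Product.Boundary.Factor
import Vale.Agent.P002.Product.Boundary.Tensor
import Vale.Agent.P002.Product.Boundary.Free
import Vale.Agent.P002.Product.Boundary.Semi

/-!
Invariant polynomials vanishing at semisimple homomorphisms over the integers of a number field with
given classes at the marked elements vanish at all semisimple ones with these classes.
-/

namespace Vale.Agent.P002

open Matrix MvPolynomial

variable {r k : ℕ} {Γ Δ : Type*} [Group Γ] [Group Δ]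

/-- Conjugation by an invertible matrix is conjugation by a special linear one. -/
lemma exists_SL_conj [NeZero r] (U : (Mat r)ˣ) :
    ∃ h : SLC r, ∀ g, P002.conjU U g = h * g * h⁻¹ := by
  have hU : U.val.det ≠ 0 := ((Matrix.isUnit_iff_isUnit_det _).1 U.isUnit).ne_zero
  obtain ⟨c, hc⟩ := IsAlgClosed.exists_pow_nat_eq U.val.det⁻¹ (Nat.pos_of_neZero r)
  have hc0 : c ≠ 0 := fun e => by
    rw [e, zero_pow (NeZero.ne r)] at hc
    exact inv_ne_zero hU hc.symm
  let h : SLC r := ⟨c • U.val, by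
    rw [Matrix.det_smul, Fintype.card_fin, hc, inv_mul_cancel₀ hU]⟩
  have hh : h⁻¹.val = c⁻¹ • U⁻¹.val := by
    rw [coe_inv_SL]
    refine Matrix.inv_eq_left_inv ?_
    rw [show h.val = c • U.val from rfl, smul_mul_assoc, mul_smul_comm, smul_smul,
      inv_mul_cancel₀ hc0, one_smul, Units.inv_mul]
  refine ⟨h, fun g => Subtype.ext ?_⟩
  simp only [conjU_val, Matrix.SpecialLinearGroup.coe_mul, hh]
  rw [show h.val = c • U.val from rfl]
  simp only [smul_mul_assoc, mul_smul_comm, smul_smul, inv_mul_cancel₀ hc0, one_smul]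

lemma TwistedB.of_equiv {K : Set Γ} (h : TwistedB Γ K) (e : Δ ≃* Γ) {K' : Set Δ}
    (hK : ∀ δ, δ ∈ K' ↔ e δ ∈ K) : TwistedB Δ K' := by
  intro R N hN
  obtain ⟨M, hM, hMd⟩ := h R N hN
  refine ⟨M, hM, fun d _ hdR ρ hirr hq => ?_⟩
  have hirr' : Irred fun γ => ((ρ.comp e.symm.toMonoidHom) γ).val := fun U hU =>
    hirr U fun δ u hu => by simpa using hU (e δ) u hu
  obtain ⟨χ, σ, U, hσ, hρ⟩ := hMd d hdR _ hirr'
    (fun γ hγ => hq (e.symm γ) (by rw [hK, e.apply_symm_apply]; exact hγ))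
  refine ⟨χ.comp e.toMonoidHom, σ.comp e.toMonoidHom, U, ?_, fun δ => by simpa using hρ (e δ)⟩
  have h1 := polyCl_map (T := intHomB K' M (σ.comp e.toMonoidHom))
    (fun v : Δ × Fin d × Fin d => MvPolynomial.X (e v.1, v.2.1, v.2.2)) (fun y hy => ?_) hσ
  · refine (congrArg (· ∈ polyCl _) (funext fun v => ?_)).mp h1
    simp [hcoord]
  · obtain ⟨τ, h1, h2, h3, rfl⟩ := hy
    refine subset_polyCl _ ⟨τ.comp e.toMonoidHom, fun δ p q => h1 _ p q,
      Irred.full fun U hU => h2.invariant (W := U) fun γ u hu => ?_,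
      fun δ hδ => h3 (e δ) ((hK δ).1 hδ), by funext v; simp [hcoord]⟩
    simpa using hU (e.symm γ) u hu

lemma twistedB_trivial [Subsingleton Γ] (K : Set Γ) (hK : K = ∅) :
    TwistedB Γ K ∧ FreeAbB Γ K := by
  subst hK
  refine ⟨twistedB_of_twisted twisted_trivial.1, 0, Fin.elim0, fun _ => 0, fun _ _ => by simp,
    fun _ _ => rfl, fun u => u.elim0, ?_⟩
  exact Subsingleton.elim _ _

/-- The marked elements of a product of curves. -/
def pmarks {m : ℕ} (g s : Fin m → ℕ) (cond : Fin m → Bool) : Set (∀ i, CGrp (g i) (s i)) :=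
  {x | ∃ i l, cond i = true ∧ x = Pi.mulSingle i (PresentedGroup.of (Sum.inr l))}

lemma twistedB_abelian {s : ℕ} (hs : s ≤ 2) : TwistedB (CGrp 0 s) (marks 0 s) := by
  intro R N _
  refine ⟨1, one_pos, fun d _ _ ρ hirr _ => ?_⟩
  rcases Nat.lt_or_ge d 2 with h2 | h2
  · obtain rfl : d = 1 := by have := Nat.pos_of_neZero d; omega
    exact twistedB_one _ _ ρ
  exfalso
  let f : CGen 0 s → Mat d := fun v => (ρ (PresentedGroup.of v)).val
  have hI : Irred f := irred_snd hirr (closure_of 0 s) fun γ hγ => by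
    obtain ⟨v, rfl⟩ := hγ
    exact ⟨v, 1, by simp [f]⟩
  have hcomm : ∀ v w, Commute (f v) (f w) := by
    rintro (⟨i, _⟩ | i) (⟨j, _⟩ | j)
    · exact i.elim0
    · exact i.elim0
    · exact j.elim0
    · rcases eq_or_ne i j with rfl | hij
      · exact Commute.refl _
      have hs2 : s = 2 := by
        have h1 := i.isLt
        have h2 := j.isLt
        have h3 : i.val ≠ j.val := fun e => hij (Fin.ext e)
        omega
      subst hs2
      have h : ρ (PresentedGroup.of (.inr 0)) * ρ (PresentedGroup.of (.inr 1)) = 1 := by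
        have := curveRel_hom ρ
        simpa [curveRel, List.ofFn_succ] using this
      have h01 : Commute (ρ (PresentedGroup.of (.inr 0))) (ρ (PresentedGroup.of (.inr 1))) :=
        h.trans (mul_eq_one_comm.1 h).symm
      fin_cases i <;> fin_cases j
      · exact absurd rfl hij
      · exact congrArg Units.val h01.eq
      · exact congrArg Units.val h01.symm.eq
      · exact absurd rfl hij
  obtain ⟨c, hc⟩ := hI.full.triv (Matrix.single (0 : Fin d) ⟨1, h2⟩ (1 : ℂ)) fun v => by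
    obtain ⟨a, ha⟩ := hI.full.triv (f v) fun w => hcomm w v
    rw [ha]
    exact (Commute.one_left _).smul_left a
  have := congrFun (congrFun hc 0) ⟨1, h2⟩
  simp [Matrix.single, Fin.ext_iff] at this

lemma twistedB_factor {g s : ℕ} (c : Bool) (h : c = true → 2 ≤ g ∨ s = 0 ∨ (g = 0 ∧ s ≤ 2)) :
    TwistedB (CGrp g s) (if c then marks g s else ∅) ∧
      FreeAbB (CGrp g s) (if c then marks g s else ∅) := by
  cases c
  · exact ⟨twistedB_of_twisted (twisted_curve g s), freeAbB_curve g s⟩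
  · refine ⟨?_, freeAbB_marks g s⟩
    cases s with
    | zero =>
      have : marks g 0 = ∅ := Set.range_eq_empty _
      simp only [if_pos, this]
      exact twistedB_of_twisted (twisted_curve g 0)
    | succ s =>
      rcases h rfl with h | h | ⟨hg, hs⟩
      · exact twistedB_curve h s
      · exact absurd h (Nat.succ_ne_zero s)
      · subst hg
        exact twistedB_abelian hs

/-- Products of curves with marked punctures. -/
theorem twistedB_curves : ∀ (m : ℕ) (g s : Fin m → ℕ) (cond : Fin m → Bool),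
    (∀ i, cond i = true → 2 ≤ g i ∨ s i = 0 ∨ (g i = 0 ∧ s i ≤ 2)) →
    TwistedB (∀ i, CGrp (g i) (s i)) (pmarks g s cond) ∧
      FreeAbB (∀ i, CGrp (g i) (s i)) (pmarks g s cond)
  | 0, g, s, cond, _ => twistedB_trivial _ (Set.eq_empty_iff_forall_notMem.2
      fun _ ⟨i, _⟩ => i.elim0)
  | m + 1, g, s, cond, hc => by
    obtain ⟨h1, h2⟩ := twistedB_curves m (fun i => g i.succ) (fun i => s i.succ)
      (fun i => cond i.succ) fun i => hc i.succ
    obtain ⟨f1, f2⟩ := twistedB_factor (cond 0) (hc 0)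
    let e : (∀ i, CGrp (g i) (s i)) ≃*
        CGrp (g 0) (s 0) × (∀ i : Fin m, CGrp (g i.succ) (s i.succ)) :=
      { toFun := fun f => (f 0, fun i => f i.succ)
        invFun := fun p => Fin.cons p.1 p.2
        left_inv := fun f => Fin.cons_self_tail f
        right_inv := fun p => Prod.ext rfl rfl
        map_mul' := fun _ _ => rfl }
    have he : ∀ f : ∀ i, CGrp (g i) (s i), e f = (f 0, fun i : Fin m => f i.succ) := fun _ => rfl
    have e0 : ∀ x, e (Pi.mulSingle 0 x) = (x, 1) := fun x =>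
      Prod.ext (by simp [he]) (funext fun i => by simp [he, Fin.succ_ne_zero i])
    have e1 : ∀ j x, e (Pi.mulSingle j.succ x) = (1, Pi.mulSingle j x) := fun j x => by
      refine Prod.ext (by simp [he, (Fin.succ_ne_zero j).symm]) (funext fun i => ?_)
      rcases eq_or_ne i j with rfl | hij
      · simp [he]
      · simp [he, Pi.mulSingle_eq_of_ne hij, Pi.mulSingle_eq_of_ne (fun h => hij (Fin.succ_inj.1 h))]
    have hK : ∀ x, x ∈ pmarks g s cond ↔ e x ∈
        ((fun c => (c, 1)) '' (if cond 0 then marks (g 0) (s 0) else ∅) ∪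
          (fun c => (1, c)) '' pmarks (fun i => g i.succ) (fun i => s i.succ)
            fun i => cond i.succ) := by
      intro x
      constructor
      · rintro ⟨i, l, hi, rfl⟩
        induction i using Fin.cases with
        | zero => exact Or.inl ⟨PresentedGroup.of (Sum.inr l), by simp [hi, marks], (e0 _).symm⟩
        | succ j => exact Or.inr ⟨_, ⟨j, l, hi, rfl⟩, (e1 _ _).symm⟩
      · rintro (⟨c, hc', hx⟩ | ⟨c, ⟨j, l, hj, rfl⟩, hx⟩)
        · by_cases hc0 : cond 0 = true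
          · rw [if_pos hc0] at hc'
            obtain ⟨l, rfl⟩ := hc'
            exact ⟨0, l, hc0, e.injective (hx.symm.trans (e0 _).symm)⟩
          · rw [if_neg hc0] at hc'
            exact hc'.elim
        · exact ⟨j.succ, l, hj, e.injective (hx.symm.trans (e1 _ _).symm)⟩
    exact ⟨(f1.prod h1).of_equiv e hK, (f2.prod h2).of_equiv e hK⟩

variable {blk : Fin r → Fin k}

lemma eigen_block {N : ℕ} {g : Mat r} (hg : BD blk g) (h : Quasi N g) (j : Fin k) :
    Quasi N (bproj blk g j) := by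
  intro μ x hx he
  refine h μ (bincl blk j x) (fun h0 => hx ?_) ?_
  · funext p
    rw [← bincl_bE blk j x p, h0]
    rfl
  · rw [mulVec_bincl hg, he, map_smul]

/-- A block diagonal sum of twisted irreducible integral homomorphisms. -/
lemma exists_sum_hom {M : ℕ} (χ : Fin k → Γ →* ℂˣ)
    (hχ : ∀ γ, ∏ j, χ j γ ^ bsz blk j = 1) (hχU : ∀ j γ, χ j γ ∈ unitsL M)
    (τ : ∀ j, Γ →* SLC (bsz blk j)) (hτ : ∀ j γ p q, (τ j γ).val p q ∈ intL M)
    (hfull : ∀ j, Full fun γ => (τ j γ).val) :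
    ∃ ρ : Γ →* SLC r, (∀ γ, (ρ γ).val = bdiag blk fun j => (χ j γ : ℂ) • (τ j γ).val) ∧
      (∀ γ p q, (ρ γ).val p q ∈ intL M) ∧ HIrredBlocks blk ρ := by
  let B : Γ → Mat r := fun γ => bdiag blk fun j => (χ j γ : ℂ) • (τ j γ).val
  have hdet : ∀ γ, (B γ).det = 1 := fun γ => by
    show (bdiag blk _).det = 1
    rw [det_bdiag]
    simp only [Matrix.det_smul, Fintype.card_fin, Matrix.SpecialLinearGroup.det_coe, mul_one]
    simpa using congrArg Units.val (hχ γ)
  refine ⟨MonoidHom.mk' (fun γ => (⟨B γ, hdet γ⟩ : SLC r)) fun γ δ => Subtype.ext ?_,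
    fun γ => rfl, fun γ p q => ?_, fun j U hU0 hsupp hinv w hw => ?_⟩
  · show B (γ * δ) = B γ * B δ
    simp only [B]
    rw [← bdiag_mul]
    congr 1
    funext j
    simp only [Pi.mul_apply, map_mul, Units.val_mul, Matrix.SpecialLinearGroup.coe_mul,
      smul_mul_assoc, mul_smul_comm, smul_smul, mul_comm]
  · show B γ p q ∈ intL M
    obtain ⟨⟨i, a⟩, rfl⟩ := (bE blk).surjective p
    obtain ⟨⟨j, b⟩, rfl⟩ := (bE blk).surjective q
    show bdiag blk _ (bE blk ⟨i, a⟩) (bE blk ⟨j, b⟩) ∈ intL M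
    rw [bdiag_apply]
    by_cases hij : i = j
    · subst hij
      rw [Matrix.blockDiagonal'_apply_eq, Matrix.smul_apply, smul_eq_mul]
      exact mul_mem (hχU i γ).1 (hτ i γ a b)
    · rw [Matrix.blockDiagonal'_apply_ne _ _ _ hij]
      exact zero_mem _
  · have hinv' : ∀ γ, ∀ x ∈ U.comap (bincl blk j), (τ j γ).val *ᵥ x ∈ U.comap (bincl blk j) := by
      intro γ x hx
      have h1 := hinv γ _ hx
      change B γ *ᵥ bincl blk j x ∈ U at h1
      rw [mulVec_bincl (bd_bdiag blk _), bproj_bdiag, Matrix.smul_mulVec, map_smul] at h1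
      exact (Submodule.smul_mem_iff U (Units.ne_zero _)).1 h1
    have hback : ∀ u : Fin r → ℂ, (∀ a, blk a ≠ j → u a = 0) →
        bincl blk j (fun p => u (bE blk ⟨j, p⟩)) = u := fun u hu => by
      funext a
      show dite _ _ _ = _
      by_cases ha : blk a = j
      · rw [dif_pos ha]
        simp [bE_apply]
      · rw [dif_neg ha, hu a ha]
    rcases (hfull j).invariant hinv' with h0 | h0
    · obtain ⟨u, hu, hu0⟩ := Submodule.exists_mem_ne_zero_of_ne_bot hU0
      have : (fun p => u (bE blk ⟨j, p⟩)) ∈ U.comap (bincl blk j) := by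
        rw [Submodule.mem_comap, hback u (hsupp u hu)]; exact hu
      rw [h0, Submodule.mem_bot] at this
      exact absurd (by rw [← hback u (hsupp u hu), this, map_zero]) hu0
    · have : (fun p => w (bE blk ⟨j, p⟩)) ∈ U.comap (bincl blk j) := h0 ▸ Submodule.mem_top
      rwa [Submodule.mem_comap, hback w hw] at this

/-- Block diagonal matrices with conjugate blocks are conjugate in the special linear group. -/
lemma isConj_bdiag [NeZero r] {A B : SLC r} {X : ∀ j, Mat (bsz blk j)}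
    {Y : ∀ j, Mat (bsz blk j)} (hA : A.val = bdiag blk X) (hB : B.val = bdiag blk Y)
    (u : ∀ j, SLC (bsz blk j)) (h : ∀ j, Y j = (u j).val * X j * (u j)⁻¹.val) : IsConj A B := by
  obtain ⟨t, ht⟩ := exists_SL_conj (bdiagU blk fun j => Matrix.SpecialLinearGroup.toGL (u j))
  refine isConj_iff.2 ⟨t, ?_⟩
  rw [← ht]
  refine Subtype.ext ?_
  rw [conjU_val, ← map_inv, bdiagU_val, bdiagU_val, hA, hB, ← bdiag_mul, ← bdiag_mul]
  congr 1
  funext j
  rw [h j, Pi.mul_apply, Pi.mul_apply, Pi.inv_apply, ← map_inv]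
  rfl

/-- Roots of unity times units are dense among characters with prescribed values at the marks. -/
lemma chars_dense [NeZero r] {K : Set Γ} {M N₀ N : ℕ} [NeZero M] (hrM : r ∣ M) (hN₀ : N₀ ∣ M)
    {e : Fin N → Γ} {w : Γ → Fin N → ℤ} (hw : ∀ γ δ, w (γ * δ) = w γ + w δ)
    (hwK : ∀ c ∈ K, w c = 0) (hwe : ∀ u v, w (e u) v = if u = v then 1 else 0)
    (hcl : Subgroup.closure (K ∪ Set.range e) = ⊤) (d : Fin k → ℕ) (hd : ∑ j, d j = r)
    (χ : Fin k → Γ →* ℂˣ) (hdet : ∀ γ, ∏ j, χ j γ ^ d j = 1)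
    (hroot : ∀ j, ∀ c ∈ K, χ j c ^ N₀ = 1) :
    (fun u : Fin k × Γ => ((χ u.1 u.2 : ℂˣ) : ℂ)) ∈ polyCl {y | ∃ χ' : Fin k → Γ →* ℂˣ,
      (∀ j γ, χ' j γ ∈ unitsL M) ∧ (∀ γ, ∏ j, χ' j γ ^ d j = 1) ∧
      (∀ j, ∀ c ∈ K, χ' j c = χ j c) ∧ y = fun u => ((χ' u.1 u.2 : ℂˣ) : ℂ)} := by
  classical
  let free : (Fin k → Fin N → ℂˣ) → Fin k → Γ →* ℂˣ := fun t j =>
    MonoidHom.mk' (fun γ => ∏ u, t j u ^ w γ u) fun γ δ => by
      simp [hw, _root_.zpow_add, Finset.prod_mul_distrib]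
  have hfree : ∀ t, (∀ u, ∏ j, t j u ^ d j = 1) → ∀ γ, ∏ j, free t j γ ^ d j = 1 := fun t ht γ => by
    simp only [free, MonoidHom.mk'_apply, ← Finset.prod_pow]
    rw [Finset.prod_comm]
    refine Finset.prod_eq_one fun u _ => ?_
    have h1 : ∏ j, (t j u ^ d j) ^ w γ u = 1 := by
      rw [Finset.prod_zpow, ht u, _root_.one_zpow]
    rw [← h1]
    exact Finset.prod_congr rfl fun j _ => by
      rw [← zpow_natCast, ← _root_.zpow_mul, mul_comm, _root_.zpow_mul, zpow_natCast]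
  let t : Fin k → Fin N → ℂˣ := fun j u => χ j (e u)
  let ψ : Fin k → Γ →* ℂˣ := fun j => χ j * (free t j)⁻¹
  have hψ : ∀ j γ, ψ j γ ^ N₀ = 1 := fun j γ => by
    have hγ : γ ∈ Subgroup.closure (K ∪ Set.range e) := hcl ▸ Subgroup.mem_top γ
    have hle : Subgroup.closure (K ∪ Set.range e) ≤
        ((powMonoidHom N₀).comp (ψ j)).ker := by
      refine (Subgroup.closure_le _).2 ?_
      rintro x (hx | ⟨u, rfl⟩)
      · show ψ j x ^ N₀ = 1
        simp [ψ, free, hwK x hx, hroot j x hx]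
      · show ψ j (e u) ^ N₀ = 1
        simp [ψ, free, t, hwe]
    exact hle hγ
  have hψd : ∀ γ, ∏ j, ψ j γ ^ d j = 1 := fun γ => by
    simp only [ψ, MonoidHom.mul_apply, MonoidHom.inv_apply, mul_pow, inv_pow,
      Finset.prod_mul_distrib, Finset.prod_inv_distrib, hdet,
      hfree t (fun u => hdet (e u)), inv_one, mul_one]
  have hχ : ∀ j γ, χ j γ = ψ j γ * free t j γ := fun j γ => by simp [ψ]
  have h := polyCl_map (fun u : Fin k × Γ => C (((ψ u.1 u.2 : ℂˣ)) : ℂ) * X u)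
    (T := {y | ∃ χ' : Fin k → Γ →* ℂˣ,
      (∀ j γ, χ' j γ ∈ unitsL M) ∧ (∀ γ, ∏ j, χ' j γ ^ d j = 1) ∧
      (∀ j, ∀ c ∈ K, χ' j c = χ j c) ∧ y = fun u => ((χ' u.1 u.2 : ℂˣ) : ℂ)})
    (fun y hy => ?_) (units_torus_dense d hd t (fun u => hdet (e u)) w)
  · refine (congrArg (· ∈ polyCl _) (funext fun u => ?_)).mp h
    rw [map_mul, eval_C, eval_X, hχ, Units.val_mul]
    rfl
  · obtain ⟨t', htU, ht', rfl⟩ := hy
    refine subset_polyCl _ ⟨fun j => ψ j * free t' j, fun j γ => ?_, fun γ => ?_,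
      fun j c hc => ?_, funext fun u => ?_⟩
    · show ψ j γ * free t' j γ ∈ unitsL M
      refine mul_mem ?_ ?_
      obtain ⟨c, rfl⟩ := hN₀
      exact root_mem_unitsL (by rw [pow_mul, hψ j γ, one_pow])
      show ∏ u, t' j u ^ w γ u ∈ unitsL M
      refine prod_mem fun u _ => zpow_mem ?_ _
      exact ⟨intL_mono hrM (htU j u).1, intL_mono hrM (htU j u).2⟩
    · simp only [MonoidHom.mul_apply, mul_pow, Finset.prod_mul_distrib, hψd, hfree t' ht', mul_one]
    · simp [hχ, free, hwK c hc]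
    · rw [map_mul, eval_C, eval_X, MonoidHom.mul_apply, Units.val_mul]
      rfl

/-- Invariant polynomials vanishing at semisimple homomorphisms over the integers with given
classes at the marks vanish at all semisimple homomorphisms with these classes. -/
theorem eval_zero_of_twistedB [NeZero r] {K : Set Γ} (hT : TwistedB Γ K) (hA : FreeAbB Γ K)
    {N : ℕ} (hN : 0 < N) :
    ∃ M, 0 < M ∧ ∀ (P : MvPolynomial (Γ × Fin r × Fin r) ℂ) (ρ : Γ →* SLC r),
      (∀ U : Submodule ℂ (Fin r → ℂ), (∀ γ, ∀ u ∈ U, (ρ γ).val *ᵥ u ∈ U) →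
        ∃ U', (∀ γ, ∀ u ∈ U', (ρ γ).val *ᵥ u ∈ U') ∧ IsCompl U U') →
      (∀ c ∈ K, Quasi N (ρ c).val) →
      (∀ h : SLC r, eval (hcoord fun γ => h * ρ γ * h⁻¹) P = eval (hcoord ρ) P) →
      (∀ τ : Γ →* SLC r, (∀ c ∈ K, IsConj (ρ c) (τ c)) →
        (∃ h : SLC r, ∀ x ∈ K, ∀ l : ℕ, (∀ γ, Commute (ρ (x ^ l)) (ρ γ)) →
          τ (x ^ l) = h * ρ (x ^ l) * h⁻¹ ∧ ∀ γ, Commute (τ (x ^ l)) (τ γ)) →
        (∀ γ p q, (τ γ).val p q ∈ intL M) →
        (∀ U : Submodule ℂ (Fin r → ℂ), (∀ γ, ∀ u ∈ U, (τ γ).val *ᵥ u ∈ U) →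
          ∃ U', (∀ γ, ∀ u ∈ U', (τ γ).val *ᵥ u ∈ U') ∧ IsCompl U U') →
        eval (hcoord τ) P = 0) →
      eval (hcoord ρ) P = 0 := by
  classical
  obtain ⟨M₁, hM₁, hTd⟩ := hT r N hN
  obtain ⟨n, e, w, hw, hwK, hwe, hcl⟩ := hA
  refine ⟨M₁ * (r.factorial * N), Nat.mul_pos hM₁ (Nat.mul_pos r.factorial_pos hN),
    fun P ρ hss hq hinv hP0 => ?_⟩
  set M := M₁ * (r.factorial * N) with hMdef
  have : NeZero M := ⟨(Nat.mul_pos hM₁ (Nat.mul_pos r.factorial_pos hN)).ne'⟩
  obtain ⟨k, blk, V, hsurj, hBD, hirr⟩ := exists_irred_blocks_of_semi ρ hss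
  set ρ' := (P002.conjU V).comp ρ with hρ'def
  have hd : ∀ j, NeZero (bsz blk j) := fun j => ⟨(bsz_pos hsurj j).ne'⟩
  have hdle : ∀ j, bsz blk j ≤ r := fun j => by
    conv_rhs => rw [← sum_bsz blk]
    exact Finset.single_le_sum (fun i _ => Nat.zero_le _) (Finset.mem_univ j)
  have hq' : ∀ c ∈ K, Quasi N (ρ' c).val := fun c hc => (hq c hc).conj V (conjU_val _ _)
  choose χ σ U hσ hρU using fun j =>
    have := hd j
    hTd (bsz blk j) (hdle j) (blockRep ρ' hBD j) (irred_blockRep hBD hirr j)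
      fun c hc => eigen_block (hBD c) (hq' c hc) j
  have hblock : ∀ γ j, bproj blk (ρ' γ).val j =
      (χ j γ : ℂ) • ((U j).val * (σ j γ).val * (U j)⁻¹.val) := fun γ j => hρU j γ
  have hdet : ∀ γ, ∏ j, χ j γ ^ bsz blk j = 1 := fun γ => by
    refine Units.ext ?_
    have := det_eq_prod (hBD γ)
    rw [(ρ' γ).2] at this
    simp only [Units.coe_prod, Units.val_pow_eq_pow_val, Units.val_one]
    rw [this]
    exact Finset.prod_congr rfl fun j _ => by
      rw [hblock, Matrix.det_smul, Matrix.det_units_conj, (σ j γ).2, mul_one, Fintype.card_fin]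
  have hroot : ∀ j, ∀ c ∈ K, χ j c ^ (r.factorial * N) = 1 := fun j c hc => by
    have h1 : Quasi N ((χ j c : ℂ) • (σ j c).val) :=
      (eigen_block (hBD c) (hq' c hc) j).conj (U j)⁻¹ (by
        rw [hblock, inv_inv]
        simp [mul_smul_comm, smul_mul_assoc, ← mul_assoc])
    obtain ⟨a, ha⟩ := Nat.mul_dvd_mul_right
      (Nat.dvd_factorial (bsz_pos hsurj j) (hdle j)) N
    refine Units.ext ?_
    rw [Units.val_pow_eq_pow_val, ha, pow_mul, h1.split.1, one_pow, Units.val_one]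
  obtain ⟨h, hh⟩ := exists_SL_conj (bdiagU blk (fun j => (U j)⁻¹) * V)
  let ρ'' : Γ →* SLC r := (P002.conjU (bdiagU blk (fun j => (U j)⁻¹) * V)).comp ρ
  have hval : ∀ γ, (ρ'' γ).val = bdiag blk fun j => (χ j γ : ℂ) • (σ j γ).val := fun γ => by
    have e1 : (ρ'' γ).val = (bdiagU blk fun j => (U j)⁻¹).val * (ρ' γ).val *
        (bdiagU blk fun j => (U j)⁻¹)⁻¹.val := by
      simp only [ρ'', hρ'def, MonoidHom.coe_comp, Function.comp_apply, conjU_val, Units.val_mul,
        _root_.mul_inv_rev, mul_assoc]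
    rw [e1, ← bdiag_bproj (hBD γ), ← map_inv (bdiagU blk), bdiagU_val, bdiagU_val, ← bdiag_mul,
      ← bdiag_mul]
    congr 1
    funext j
    simp only [Pi.mul_apply, Pi.inv_apply, inv_inv, hblock, mul_smul_comm, smul_mul_assoc,
      ← mul_assoc, Units.inv_mul, one_mul]
    rw [mul_assoc, Units.inv_mul, mul_one]
  have hevρ : eval (hcoord ρ) P = eval (hcoord ρ'') P := by
    rw [← hinv h]
    exact congrArg (fun x => eval x P) (funext fun v => by simp [hcoord, ρ'', hh])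
  have hrM : r ∣ M := dvd_mul_of_dvd_right (dvd_mul_of_dvd_left
    (Nat.dvd_factorial (Nat.pos_of_neZero r) le_rfl) N) M₁
  rw [hevρ]
  have hv : hcoord ρ'' = fun v : Γ × Fin r × Fin r =>
      eval (Sum.elim (fun u : Fin k × Γ => ((χ u.1 u.2 : ℂˣ) : ℂ))
        fun u : Σ j, Γ × Fin (bsz blk j) × Fin (bsz blk j) => hcoord (σ u.1) u.2)
        (sumPoly Γ blk v) := by
    funext v
    rw [eval_sumPoly (fun u : Fin k × Γ => ((χ u.1 u.2 : ℂˣ) : ℂ)) (fun j => hcoord (σ j)) v]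
    show (ρ'' v.1).val v.2.1 v.2.2 = _
    rw [hval]
    rfl
  rw [hv]
  refine polyCl_map (sumPoly Γ blk) (T := {x | eval x P = 0}) (fun y hy => ?_)
    (polyCl_sum (chars_dense hrM (Dvd.intro_left M₁ rfl) hw hwK hwe hcl (bsz blk) (sum_bsz blk) χ
      hdet hroot) (polyCl_pi fun j => hσ j)) P fun x hx => hx
  obtain ⟨_, ⟨χ', hχU, hχd, hχK, rfl⟩, _, ⟨y, hy, rfl⟩, rfl⟩ := hy
  choose τ hτi hτf hτc hτy using hy
  obtain ⟨ρ₁, hρ₁, hρ₁i, hρ₁b⟩ := exists_sum_hom χ' hχd hχU τ
    (fun j γ p q => intL_mono (Dvd.intro (r.factorial * N) rfl) (hτi j γ p q)) hτf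
  refine subset_polyCl _ ?_
  show eval _ P = 0
  refine (congrArg (fun x => eval x P) (funext fun v => ?_)).trans
    (hP0 ρ₁ (fun c hc => ?_) ⟨h, fun x hx l hl => ?_⟩ hρ₁i
      (semi_of_irred_blocks (fun γ => by rw [hρ₁]; exact bd_bdiag blk _) hρ₁b))
  · rw [eval_sumPoly (fun u : Fin k × Γ => ((χ' u.1 u.2 : ℂˣ) : ℂ)) y v]
    show _ = (ρ₁ v.1).val v.2.1 v.2.2
    rw [hρ₁]
    congr 2
    funext j
    rw [hτy j]
    rfl
  · choose u hu using fun j => isConj_iff.1 (hτc j c hc)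
    refine (isConj_iff.2 ⟨h, (hh (ρ c)).symm⟩ : IsConj (ρ c) (ρ'' c)).trans
      (isConj_bdiag (hval c) (hρ₁ c) u fun j => ?_)
    rw [← hu j, hχK j c hc]
    simp [mul_smul_comm, smul_mul_assoc]
  · -- central powers of marks are the same in both
    have hsc : ∀ j, ∃ a : ℂ, (σ j (x ^ l)).val = a • 1 := fun j => by
      have := hd j
      refine (Irred.full (g := fun γ => (σ j γ).val) ?_).triv _ fun γ => ?_
      · refine irred_conj (U j) (g := fun γ => (σ j γ).val)
          (f := fun γ => (U j).val * (σ j γ).val * (U j)⁻¹.val) ?_ fun γ => by simp [← mul_assoc]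
        intro W hW
        refine irred_blockRep hBD hirr j W fun γ u hu => ?_
        show (blockRep ρ' hBD j γ).val *ᵥ u ∈ W
        rw [hρU j γ, Matrix.smul_mulVec]
        exact W.smul_mem _ (hW γ u hu)
      · have hc : Commute (ρ'' (x ^ l)) (ρ'' γ) := (hl γ).map (P002.conjU _)
        have h1 := congrArg (fun A : SLC r => bproj blk A.val j) hc.eq
        simp only [Matrix.SpecialLinearGroup.coe_mul, hval, ← bdiag_mul, bproj_bdiag, Pi.mul_apply,
          smul_mul_assoc, mul_smul_comm, smul_smul, mul_comm (χ j γ : ℂ)] at h1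
        exact (smul_right_injective (Mat (bsz blk j))
          (mul_ne_zero (Units.ne_zero _) (Units.ne_zero _)) h1).symm
    choose a ha using hsc
    have hτσ : ∀ j, τ j (x ^ l) = σ j (x ^ l) := fun j => by
      obtain ⟨u, hu⟩ := isConj_iff.1 (hτc j x hx)
      rw [map_pow, map_pow, ← hu, conj_pow]
      refine Subtype.ext ?_
      rw [← map_pow, Matrix.SpecialLinearGroup.coe_mul, Matrix.SpecialLinearGroup.coe_mul, ha]
      simp [Matrix.mul_adjugate]
    have he1 : ρ₁ (x ^ l) = ρ'' (x ^ l) := Subtype.ext (by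
      rw [hρ₁, hval]
      congr 1
      funext j
      rw [hτσ, map_pow, hχK j x hx, ← map_pow])
    refine ⟨by rw [he1]; exact hh _, fun γ => Subtype.ext ?_⟩
    show (ρ₁ (x ^ l)).val * (ρ₁ γ).val = (ρ₁ γ).val * (ρ₁ (x ^ l)).val
    rw [hρ₁, hρ₁, ← bdiag_mul, ← bdiag_mul]
    congr 1
    funext j
    simp only [Pi.mul_apply, hτσ, ha, smul_mul_assoc, mul_smul_comm, smul_smul, Matrix.one_mul,
      Matrix.mul_one]
    congr 1
    ring

/-- A common order of the eigenvalues of one matrix. -/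
lemma exists_order_one {d : ℕ} (g : Mat d)
    (h : ∀ μ ∈ g.charpoly.roots, ∃ k : ℕ, 0 < k ∧ μ ^ k = 1) : ∃ N, 0 < N ∧ Quasi N g := by
  classical
  choose k hk hk1 using fun μ : g.charpoly.roots.toFinset => h μ.1 (Multiset.mem_toFinset.1 μ.2)
  refine ⟨∏ μ, k μ, Finset.prod_pos fun μ _ => hk μ, quasi_iff.2 fun μ hμ => ?_⟩
  have hmem : μ ∈ g.charpoly.roots.toFinset :=
    Multiset.mem_toFinset.2 ((Polynomial.mem_roots (Matrix.charpoly_monic g).ne_zero).2 hμ)
  obtain ⟨a, ha⟩ := Finset.dvd_prod_of_mem k (Finset.mem_univ (⟨μ, hmem⟩ : g.charpoly.roots.toFinset))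
  rw [ha, pow_mul, hk1 ⟨μ, hmem⟩, one_pow]

/-- A common order of the eigenvalues. -/
lemma exists_order {m : ℕ} {s : Fin m → ℕ} (S : Finset (Fin m))
    (C : ∀ i, Fin (s i) → SLC r)
    (hC : ∀ i ∈ S, ∀ l, ∀ μ ∈ (C i l).val.charpoly.roots, ∃ k : ℕ, 0 < k ∧ μ ^ k = 1) :
    ∃ N, 0 < N ∧ ∀ i ∈ S, ∀ l, Quasi N (C i l).val := by
  classical
  choose N hN hq using fun x : (Σ i : S, Fin (s i.1)) =>
    exists_order_one (C x.1.1 x.2).val (hC x.1.1 x.1.2 x.2)
  exact ⟨∏ x, N x, Finset.prod_pos fun x _ => hN x, fun i hi l =>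
    (hq ⟨⟨i, hi⟩, l⟩).mono (Finset.dvd_prod_of_mem N (Finset.mem_univ _))⟩

/-- The generators of the factors generate a product of curve groups. -/
lemma mem_closure_gens {m : ℕ} {g s : Fin m → ℕ} (γ : ∀ i, CGrp (g i) (s i)) :
    γ ∈ Subgroup.closure (Set.range fun v : Σ i, CGen (g i) (s i) =>
      (Pi.mulSingle v.1 (PresentedGroup.of v.2) : ∀ i, CGrp (g i) (s i))) := by
  set H := Subgroup.closure (Set.range fun v : Σ i, CGen (g i) (s i) =>
    (Pi.mulSingle v.1 (PresentedGroup.of v.2) : ∀ i, CGrp (g i) (s i)))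
  refine Subgroup.pi_mem_of_mulSingle_mem γ fun i => ?_
  exact PresentedGroup.generated_by _
    (H.comap (MonoidHom.mulSingle (fun i => CGrp (g i) (s i)) i))
    (fun v => Subgroup.subset_closure ⟨⟨i, v⟩, rfl⟩) (γ i)

end Vale.Agent.P002
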