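import Vale.Agent.P002.Product.Main

/-!
Quasi-unipotent matrices, and closures of irreducible integral homomorphisms with marked classes.
-/

namespace Vale.Agent.P002

open Matrix MvPolynomial

variable {d : ℕ} {Γ : Type*} [Group Γ]

/-- All eigenvalues are roots of unity of order dividing `N`. -/
def Quasi (N : ℕ) (g : Mat d) : Prop :=
  ∀ (μ : ℂ) (x : Fin d → ℂ), x ≠ 0 → g *ᵥ x = μ • x → μ ^ N = 1

lemma quasi_iff {N : ℕ} {g : Mat d} : Quasi N g ↔ ∀ μ, g.charpoly.IsRoot μ → μ ^ N = 1 := by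
  have key : ∀ μ : ℂ, g.charpoly.IsRoot μ ↔ ∃ x : Fin d → ℂ, x ≠ 0 ∧ g *ᵥ x = μ • x := fun μ => by
    rw [Polynomial.IsRoot, Matrix.eval_charpoly, ← Matrix.exists_mulVec_eq_zero_iff]
    have e : ∀ x : Fin d → ℂ, (Matrix.scalar (Fin d) μ - g) *ᵥ x = μ • x - g *ᵥ x := fun x => by
      rw [Matrix.sub_mulVec, Matrix.scalar_apply, ← Matrix.smul_one_eq_diagonal, Matrix.smul_mulVec,
        Matrix.one_mulVec]
    simp only [e, sub_eq_zero, eq_comm (a := μ • _)]
  exact ⟨fun h μ hμ => by obtain ⟨x, hx, he⟩ := (key μ).1 hμ; exact h μ x hx he,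
    fun h μ x hx he => h μ ((key μ).2 ⟨x, hx, he⟩)⟩

lemma Quasi.mono {N N' : ℕ} {g : Mat d} (h : Quasi N g) (hN : N ∣ N') : Quasi N' g := by
  intro μ x hx he
  obtain ⟨c, rfl⟩ := hN
  rw [pow_mul, h μ x hx he, one_pow]

lemma Quasi.conj {N : ℕ} {g g' : Mat d} (U : (Mat d)ˣ) (h : Quasi N g)
    (he : g' = U.val * g * U⁻¹.val) : Quasi N g' := by
  intro μ x hx hxe
  refine h μ (U⁻¹.val *ᵥ x) (fun h0 => hx ?_) ?_
  · have := congrArg (U.val *ᵥ ·) h0
    simpa [Matrix.mulVec_mulVec] using this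
  · rw [he] at hxe
    have := congrArg (U⁻¹.val *ᵥ ·) hxe
    simpa [Matrix.mulVec_mulVec, Matrix.mulVec_smul, ← mul_assoc] using this

lemma Quasi.det_pow {N : ℕ} {g : Mat d} (h : Quasi N g) : g.det ^ N = 1 := by
  rw [Matrix.det_eq_prod_roots_charpoly]
  refine Multiset.prod_induction (fun z => z ^ N = 1) _ (fun a b ha hb => by rw [mul_pow, ha, hb,
    one_mul]) (one_pow N) fun μ hμ => ?_
  exact quasi_iff.1 h μ ((Polynomial.mem_roots (Matrix.charpoly_monic g).ne_zero).1 hμ)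

/-- A scalar factor of a quasi-unipotent element is a root of unity. -/
lemma Quasi.split {N : ℕ} {c : ℂ} {A : SLC d} (h : Quasi N (c • A.val)) :
    c ^ (d * N) = 1 ∧ Quasi (d * N) A.val := by
  have hc : c ^ (d * N) = 1 := by
    have := h.det_pow
    rw [Matrix.det_smul, A.2, mul_one, Fintype.card_fin, ← pow_mul] at this
    exact this
  refine ⟨hc, fun μ x hx he => ?_⟩
  have h1 := h (c * μ) x hx (by rw [Matrix.smul_mulVec, he, smul_smul])
  have h2 : (c * μ) ^ (d * N) = 1 := by rw [mul_comm d N, pow_mul, h1, one_pow]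
  rwa [mul_pow, hc, one_mul] at h2

lemma span_range_hom (f : Γ →* Mat d) (h : Full fun γ => f γ) :
    Submodule.span ℂ (Set.range f) = ⊤ := by
  rw [eq_top_iff, ← h]
  refine Submodule.span_mono ?_
  rintro _ ⟨l, rfl⟩
  exact ⟨l.prod, map_list_prod f l⟩

lemma full_of_span {κ : Type*} {f : κ → Mat d} (h : Submodule.span ℂ (Set.range f) = ⊤) :
    Full f := by
  rw [Full, eq_top_iff, ← h]
  refine Submodule.span_mono ?_
  rintro _ ⟨k, rfl⟩
  exact ⟨[k], by simp⟩

/-- The homomorphisms over the integers of the number field, irreducible and with the classes of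
`σ` at the marked elements. -/
def intHomB (K : Set Γ) (M : ℕ) (σ : Γ →* SLC d) : Set (Γ × Fin d × Fin d → ℂ) :=
  {x | ∃ τ : Γ →* SLC d, (∀ γ p q, (τ γ).val p q ∈ intL M) ∧ Full (fun γ => (τ γ).val) ∧
    (∀ γ ∈ K, IsConj (σ γ) (τ γ)) ∧ x = hcoord τ}

/-- Twisting with marked classes, uniformly for bounded dimension and order. -/
def TwistedB (Γ : Type*) [Group Γ] (K : Set Γ) : Prop :=
  ∀ R N : ℕ, 0 < N → ∃ M, 0 < M ∧ ∀ (d : ℕ) [NeZero d], d ≤ R → ∀ ρ : Γ →* (Mat d)ˣ,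
    Irred (fun γ => (ρ γ).val) → (∀ γ ∈ K, Quasi N (ρ γ).val) →
    ∃ (χ : Γ →* ℂˣ) (σ : Γ →* SLC d) (U : (Mat d)ˣ), hcoord σ ∈ polyCl (intHomB K M σ) ∧
      ∀ γ, (ρ γ).val = (χ γ : ℂ) • (U.val * (σ γ).val * U⁻¹.val)

/-- A polynomial certifying irreducibility of a homomorphism. -/
lemma exists_fullPolyH [NeZero d] {σ : Γ →* SLC d} (hF : Full fun γ => (σ γ).val) :
    ∃ D : MvPolynomial (Γ × Fin d × Fin d) ℂ, eval (hcoord σ) D ≠ 0 ∧
      ∀ τ : Γ →* SLC d, eval (hcoord τ) D ≠ 0 → Full fun γ => (τ γ).val := by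
  classical
  let f : (Γ →* SLC d) → Γ →* Mat d := fun τ =>
    { toFun := fun γ => (τ γ).val
      map_one' := by simp
      map_mul' := fun a b => by simp }
  have hspan : Submodule.span ℂ (Set.range (f σ)) = ⊤ := span_range_hom (f σ) hF
  obtain ⟨b, hbmem, hbspan, hli⟩ := Submodule.exists_fun_fin_finrank_span_eq ℂ (Set.range (f σ))
  choose γ hγ using hbmem
  have hN : Module.finrank ℂ (Submodule.span ℂ (Set.range (f σ))) =
      Fintype.card (Fin d × Fin d) := by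
    rw [hspan, finrank_top, Module.finrank_matrix]
    simp
  let e : Fin d × Fin d ≃ Fin (Module.finrank ℂ (Submodule.span ℂ (Set.range (f σ)))) :=
    (Fintype.equivFin _).trans (finCongr hN.symm)
  let M : Matrix (Fin d × Fin d) (Fin d × Fin d) (MvPolynomial (Γ × Fin d × Fin d) ℂ) :=
    Matrix.of fun p k => X (γ (e k), p.1, p.2)
  have hiff : ∀ τ : Γ →* SLC d, eval (hcoord τ) M.det ≠ 0 ↔
      LinearIndependent ℂ (fun k : Fin d × Fin d => f τ (γ (e k))) := fun τ => by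
    have hM : eval (hcoord τ) M.det = (Matrix.of fun p k => f τ (γ (e k)) p.1 p.2 :
        Matrix (Fin d × Fin d) (Fin d × Fin d) ℂ).det := by
      rw [RingHom.map_det]
      congr 1
      ext p k
      simp [M, f, hcoord]
    rw [hM, ← isUnit_iff_ne_zero, ← Matrix.isUnit_iff_isUnit_det,
      ← Matrix.linearIndependent_cols_iff_isUnit]
    let φ : Mat d ≃ₗ[ℂ] (Fin d × Fin d → ℂ) := (LinearEquiv.curry ℂ ℂ (Fin d) (Fin d)).symm
    exact LinearMap.linearIndependent_iff (v := fun k => f τ (γ (e k))) φ.toLinearMap φ.ker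
  refine ⟨M.det, (hiff σ).2 ?_, fun τ hτ => full_of_span (eq_top_iff.2 ?_)⟩
  · rw [show (fun k => f σ (γ (e k))) = b ∘ e from funext fun k => hγ (e k)]
    exact hli.comp e e.injective
  · rw [← ((hiff τ).1 hτ).span_eq_top_of_card_eq_finrank' (by rw [Module.finrank_matrix]; simp)]
    refine Submodule.span_mono ?_
    rintro _ ⟨k, rfl⟩
    exact ⟨γ (e k), rfl⟩

/-- A point of a closure is in the closure of the part where a polynomial not vanishing there does
not vanish. -/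
lemma polyCl_open {ι : Type*} {S : Set (ι → ℂ)} {x : ι → ℂ} (hx : x ∈ polyCl S)
    {D : MvPolynomial ι ℂ} (hD : eval x D ≠ 0) :
    x ∈ polyCl {y ∈ S | eval y D ≠ 0} := by
  intro P hP
  have h := hx (P * D) fun y hy => by
    by_cases h0 : eval y D = 0
    · rw [map_mul, h0, mul_zero]
    · rw [map_mul, hP y ⟨hy, h0⟩, zero_mul]
  rw [map_mul, mul_eq_zero] at h
  exact h.resolve_right hD

lemma intL_mono {M M' : ℕ} [NeZero M'] (h : M ∣ M') : intL M ≤ intL M' := by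
  intro x hx
  have h0 : M ≠ 0 := fun e => NeZero.ne M' (Nat.eq_zero_of_zero_dvd (e ▸ h))
  refine mem_intL.2 ⟨?_, hx.2⟩
  refine (IntermediateField.adjoin_le_iff.2 ?_ : fldL M ≤ fldL M') hx.1
  rintro y (rfl | rfl)
  · obtain ⟨c, rfl⟩ := h
    have hpow : Complex.exp (2 * Real.pi * Complex.I / M) ^ (M * c) = 1 := by
      rw [pow_mul, (Complex.isPrimitiveRoot_exp M h0).pow_eq_one, one_pow]
    obtain ⟨i, -, hi⟩ :=
      (Complex.isPrimitiveRoot_exp (M * c) (NeZero.ne _)).eq_pow_of_pow_eq_one hpow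
    rw [SetLike.mem_coe, ← hi]
    exact pow_mem (IntermediateField.subset_adjoin _ _ (Set.mem_insert _ _)) i
  · exact IntermediateField.subset_adjoin _ _ (Set.mem_insert_of_mem _ rfl)

lemma intHomB_mono {M M' : ℕ} [NeZero M'] (h : M ∣ M') (K : Set Γ) (σ : Γ →* SLC d) :
    intHomB K M σ ⊆ intHomB K M' σ := by
  rintro x ⟨τ, h1, h2, h3, h4⟩
  exact ⟨τ, fun γ p q => intL_mono h (h1 γ p q), h2, h3, h4⟩

/-- Without marks, the twisting property suffices. -/
theorem twistedB_of_twisted (h : Twisted Γ) : TwistedB Γ ∅ := by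
  intro R N _
  refine ⟨1, one_pos, fun d _ _ ρ hirr _ => ?_⟩
  obtain ⟨χ, σ, U, hσ, hρ⟩ := h d ρ hirr
  refine ⟨χ, σ, U, ?_, hρ⟩
  have hI : Irred fun γ => (σ γ).val := by
    refine irred_conj U (g := fun γ => (σ γ).val) (f := fun γ => U.val * (σ γ).val * U⁻¹.val) ?_
      fun γ => by simp [← mul_assoc, mul_assoc _ U⁻¹.val U.val]
    intro W hW
    refine hirr W fun γ w hw => ?_
    show (ρ γ).val *ᵥ w ∈ W
    rw [hρ, Matrix.smul_mulVec]
    exact W.smul_mem _ (hW γ w hw)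
  obtain ⟨D, hD, hDf⟩ := exists_fullPolyH hI.full
  refine polyCl_sub ?_ (polyCl_open hσ hD)
  rintro y ⟨⟨τ, rfl⟩, hy⟩
  exact subset_polyCl _ ⟨(castSL d).comp τ, fun γ p q => intCast_mem _ _,
    hDf ((castSL d).comp τ) hy, fun γ hγ => (Set.notMem_empty γ hγ).elim, rfl⟩

end Vale.Agent.P002
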