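import Vale.Agent.P002.Product.Boundary.Main

/-!
Seifert fundamental groups: eigenvalues of central elements and of the exceptional generators, and
generators of the auxiliary products.
-/

namespace Vale.Agent.P002

open Matrix

variable {r : ℕ} {G : Type*} [Group G]

lemma zpow_mulVec {g : SLC r} {x : Fin r → ℂ} {μ : ℂ} (hμ : μ ≠ 0) (h : g.val *ᵥ x = μ • x)
    (k : ℤ) : (g ^ k).val *ᵥ x = μ ^ k • x := by
  induction k using Int.induction_on with
  | zero => simp
  | succ k ih =>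
    rw [_root_.zpow_add, zpow_one, Matrix.SpecialLinearGroup.coe_mul, ← Matrix.mulVec_mulVec, h,
      Matrix.mulVec_smul, ih, smul_smul, zpow_add₀ hμ, zpow_one, mul_comm]
  | pred k ih =>
    have hi : g⁻¹.val *ᵥ x = μ⁻¹ • x := by
      have := congrArg (fun y => μ⁻¹ • g⁻¹.val *ᵥ y) h
      simp only [Matrix.mulVec_mulVec, val_inv_mul, Matrix.one_mulVec, Matrix.mulVec_smul,
        smul_smul, inv_mul_cancel₀ hμ, one_smul] at this
      exact this.symm
    rw [sub_eq_add_neg, _root_.zpow_add, _root_.zpow_neg_one, Matrix.SpecialLinearGroup.coe_mul,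
      ← Matrix.mulVec_mulVec, hi, Matrix.mulVec_smul, ih, smul_smul, zpow_add₀ hμ, _root_.zpow_neg_one,
      mul_comm]

lemma eigen_ne_zero {g : SLC r} {x : Fin r → ℂ} {μ : ℂ} (hx : x ≠ 0) (h : g.val *ᵥ x = μ • x) :
    μ ≠ 0 := fun h0 => hx (by
  have := congrArg (g⁻¹.val *ᵥ ·) h
  simp only [Matrix.mulVec_mulVec, val_inv_mul, Matrix.one_mulVec, h0, zero_smul,
    Matrix.mulVec_zero] at this
  exact this)

/-- An integral power of a quasi-unipotent matrix is quasi-unipotent of the same order. -/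
lemma quasi_zpow {N : ℕ} {g : SLC r} (h : Quasi N g.val) (k : ℤ) : Quasi N (g ^ k).val := by
  intro ν x hx he
  let E : Submodule ℂ (Fin r → ℂ) := Module.End.eigenspace (Matrix.toLin' (g ^ k).val) ν
  have hE : ∀ y ∈ E, g.val *ᵥ y ∈ E := fun y hy => by
    rw [Module.End.mem_eigenspace_iff, Matrix.toLin'_apply] at hy ⊢
    rw [Matrix.mulVec_mulVec, ← Matrix.SpecialLinearGroup.coe_mul,
      ((Commute.refl g).zpow_left k).eq, Matrix.SpecialLinearGroup.coe_mul, ← Matrix.mulVec_mulVec,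
      hy, Matrix.mulVec_smul]
  have : Nontrivial E := Submodule.nontrivial_iff_ne_bot.2 fun h0 => hx (by
    have : x ∈ E := by rw [Module.End.mem_eigenspace_iff, Matrix.toLin'_apply]; exact he
    rw [h0] at this
    simpa using this)
  obtain ⟨μ, hμ⟩ := Module.End.exists_eigenvalue
    ((Matrix.toLin' g.val).restrict (p := E) (q := E) fun y hy => by simpa using hE y hy)
  obtain ⟨y, hy⟩ := hμ.exists_hasEigenvector
  have hy1 : g.val *ᵥ y.1 = μ • y.1 := by simpa using congrArg Subtype.val hy.apply_eq_smul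
  have hy0 : y.1 ≠ 0 := fun e => hy.2 (Subtype.ext e)
  have h2 := Module.End.mem_eigenspace_iff.1 y.2
  rw [Matrix.toLin'_apply, zpow_mulVec (eigen_ne_zero hy0 hy1) hy1] at h2
  rw [← smul_left_injective ℂ hy0 h2, ← zpow_natCast, ← _root_.zpow_mul, mul_comm,
    _root_.zpow_mul, zpow_natCast, h μ y.1 hy0 hy1, _root_.one_zpow]

lemma curveRel_comm {A : Type*} [CommGroup A] {g s : ℕ} (f : CGen g s → A) :
    curveRel f = ∏ l, f (.inr l) := by
  simp [curveRel, List.prod_ofFn, mul_inv_cancel_comm]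

/-- A central element of a Seifert group with non-zero Euler number has eigenvalues of bounded
order. -/
lemma quasi_central {g s : ℕ} (f : CGen g s → SLC r) (z : SLC r) (hz : ∀ v, Commute z (f v))
    (n : Fin s → ℕ) (β : Fin s → ℤ) (e : ℤ) (hrel : curveRel f = z ^ e)
    (hcn : ∀ l, f (.inr l) ^ n l = z ^ β l) (D : ℤ) (q : Fin s → ℕ) (N : ℕ)
    (hq : ∀ l, n l * q l = N) (hD : D = e * N - ∑ l, β l * (q l : ℤ)) :
    Quasi (r.factorial * D.natAbs) z.val := by
  intro lam x hx he
  let W : Submodule ℂ (Fin r → ℂ) := Module.End.eigenspace (Matrix.toLin' z.val) lam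
  have hzW : ∀ y ∈ W, z.val *ᵥ y = lam • y := fun y hy => by
    simpa using Module.End.mem_eigenspace_iff.1 hy
  have hW : ∀ a : SLC r, Commute z a → ∀ y ∈ W, a.val *ᵥ y ∈ W := fun a ha y hy => by
    rw [Module.End.mem_eigenspace_iff, Matrix.toLin'_apply]
    rw [Matrix.mulVec_mulVec, ← Matrix.SpecialLinearGroup.coe_mul, ha.eq,
      Matrix.SpecialLinearGroup.coe_mul, ← Matrix.mulVec_mulVec, hzW y hy, Matrix.mulVec_smul]
  let C : Subgroup (SLC r) := Subgroup.centralizer {z}
  have hC : ∀ a : C, Commute z a.1 := fun a =>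
    (Subgroup.mem_centralizer_singleton_iff.1 a.2).symm
  let res : C →* Module.End ℂ W :=
    { toFun := fun a => (Matrix.toLin' a.1.val).restrict (p := W) (q := W) fun y hy => by
        simpa using hW a.1 (hC a) y hy
      map_one' := LinearMap.ext fun y => Subtype.ext (by simp)
      map_mul' := fun a b => LinearMap.ext fun y => Subtype.ext (by simp [Matrix.mulVec_mulVec]) }
  let δ : C →* ℂˣ := (LinearMap.det.comp res).toHomUnits
  let zC : C := ⟨z, Subgroup.mem_centralizer_singleton_iff.2 rfl⟩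
  let fC : CGen g s → C := fun v => ⟨f v, Subgroup.mem_centralizer_singleton_iff.2 (hz v).eq.symm⟩
  have hδz : (δ zC : ℂ) = lam ^ Module.finrank ℂ W := by
    show LinearMap.det (res zC) = _
    have : res zC = lam • LinearMap.id := LinearMap.ext fun y => Subtype.ext (by
      simpa [res, zC] using hzW y.1 y.2)
    rw [this, LinearMap.det_smul, LinearMap.det_id, mul_one]
  have h1 : ∏ l, δ (fC (.inr l)) = δ zC ^ e := by
    have h : curveRel fC = zC ^ e := by
      refine Subtype.ext ?_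
      rw [show (curveRel fC).1 = C.subtype (curveRel fC) from rfl, map_curveRel]
      simpa [fC, zC] using hrel
    rw [← map_zpow, ← h, map_curveRel, curveRel_comm]
  have h2 : ∀ l, δ (fC (.inr l)) ^ n l = δ zC ^ β l := fun l => by
    rw [← map_pow, ← map_zpow]
    exact congrArg δ (Subtype.ext (by simpa [fC, zC] using hcn l))
  have h3 : δ zC ^ D = 1 := by
    have h4 : δ zC ^ (e * N) = δ zC ^ (∑ l, β l * (q l : ℤ)) := by
      rw [_root_.zpow_mul, ← h1, zpow_natCast, ← Finset.prod_pow, ← prod_zpow_sum]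
      refine Finset.prod_congr rfl fun l _ => ?_
      rw [← hq l, pow_mul, h2 l, _root_.zpow_mul, zpow_natCast]
    rw [hD, _root_.zpow_sub, h4, mul_inv_cancel]
  have h4 : δ zC ^ D.natAbs = 1 := by
    rcases Int.natAbs_eq D with h | h <;> rw [h] at h3
    · rwa [zpow_natCast] at h3
    · rwa [_root_.zpow_neg, inv_eq_one, zpow_natCast] at h3
  have h5 := congrArg Units.val h4
  rw [Units.val_pow_eq_pow_val, hδz, Units.val_one, ← pow_mul] at h5
  have hpos : 0 < Module.finrank ℂ W := by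
    have : Nontrivial W := Submodule.nontrivial_iff_ne_bot.2 fun h0 => hx (by
      have : x ∈ W := by rw [Module.End.mem_eigenspace_iff, Matrix.toLin'_apply]; exact he
      rw [h0] at this
      simpa using this)
    exact Module.finrank_pos
  obtain ⟨a, ha⟩ := Nat.mul_dvd_mul_right (Nat.dvd_factorial hpos
    ((Submodule.finrank_le W).trans_eq (Module.finrank_fin_fun ℂ))) D.natAbs
  rw [ha, pow_mul, h5, one_pow]

/-- Roots of quasi-unipotent elements. -/
lemma quasi_root {N n : ℕ} {c w : SLC r} (hw : Quasi N w.val) (h : c ^ n = w) :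
    Quasi (n * N) c.val := by
  intro μ x hx he
  have h1 : (c ^ (n : ℤ)).val *ᵥ x = μ ^ (n : ℤ) • x := zpow_mulVec (eigen_ne_zero hx he) he n
  rw [zpow_natCast, zpow_natCast, h] at h1
  rw [pow_mul]
  exact hw _ x hx h1

lemma commute_extP {g s : ℕ} (f : CGen g s → G) {x : G} (h : ∀ v, Commute x (f v)) :
    ∀ v, Commute x (extP f v) := by
  rintro (v | j)
  · exact h (.inl v)
  induction j using Fin.lastCases with
  | cast j => simpa [extP] using h (.inr j)
  | last =>
    have hmem : curveRel f ∈ Subgroup.centralizer {x} := by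
      have hv : ∀ v, f v ∈ Subgroup.centralizer {x} := fun v =>
        Subgroup.mem_centralizer_singleton_iff.2 (h v).eq.symm
      refine mul_mem (list_prod_mem fun y hy => ?_) (list_prod_mem fun y hy => ?_) <;>
        obtain ⟨i, rfl⟩ := (List.mem_ofFn' _ _).1 hy
      · exact mul_mem (mul_mem (mul_mem (hv _) (hv _)) (inv_mem (hv _))) (inv_mem (hv _))
      · exact hv _
    show Commute x (extP f (Sum.inr (Fin.last s)))
    simp only [extP, Sum.elim_inr, Fin.snoc_last]
    exact Commute.inv_right (Subgroup.mem_centralizer_singleton_iff.1 hmem).symm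

/-- All generators but the last puncture generate. -/
lemma closure_keep (g s : ℕ) : Subgroup.closure
    (Set.range fun v : CGen g s => (PresentedGroup.of (keep v) : CGrp g (s + 1))) = ⊤ := by
  set H := Subgroup.closure
    (Set.range fun v : CGen g s => (PresentedGroup.of (keep v) : CGrp g (s + 1)))
  have hk : ∀ v, (PresentedGroup.of (keep v) : CGrp g (s + 1)) ∈ H := fun v =>
    Subgroup.subset_closure ⟨v, rfl⟩
  refine top_unique ((closure_of g (s + 1)).ge.trans ((Subgroup.closure_le _).2 ?_))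
  rintro _ ⟨v, rfl⟩
  rcases v with v | j
  · exact hk (.inl v)
  induction j using Fin.lastCases with
  | cast j => exact hk (.inr j)
  | last =>
    have h := curveRel_hom (MonoidHom.id (CGrp g (s + 1)))
    rw [curveRel_succ, mul_eq_one_iff_inv_eq] at h
    simp only [MonoidHom.id_apply] at h
    show PresentedGroup.of _ ∈ H
    rw [← h]
    refine inv_mem (mul_mem (list_prod_mem fun y hy => ?_) (list_prod_mem fun y hy => ?_)) <;>
      obtain ⟨i, rfl⟩ := (List.mem_ofFn' _ _).1 hy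
    · exact mul_mem (mul_mem (mul_mem (hk (.inl (i, false))) (hk (.inl (i, true))))
        (inv_mem (hk (.inl (i, false))))) (inv_mem (hk (.inl (i, true))))
    · exact hk (.inr i)

/-- Homomorphisms of products agree with a membership on generators. -/
lemma mem_of_keep {m : ℕ} {g s : Fin m → ℕ} (H : Subgroup (∀ i, CGrp (g i) (s i + 1)))
    (h : ∀ i (v : CGen (g i) (s i)),
      (Pi.mulSingle i (PresentedGroup.of (keep v) : CGrp (g i) (s i + 1)) :
        ∀ i, CGrp (g i) (s i + 1)) ∈ H)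
    (γ : ∀ i, CGrp (g i) (s i + 1)) : γ ∈ H := by
  refine Subgroup.pi_mem_of_mulSingle_mem γ fun i => ?_
  have hle : Subgroup.closure (Set.range fun v : CGen (g i) (s i) =>
      (PresentedGroup.of (keep v) : CGrp (g i) (s i + 1))) ≤
        H.comap (MonoidHom.mulSingle (fun i => CGrp (g i) (s i + 1)) i) :=
    (Subgroup.closure_le _).2 (by rintro _ ⟨v, rfl⟩; exact h i v)
  exact hle (closure_keep (g i) (s i) ▸ Subgroup.mem_top (γ i))

/-- The auxiliary product: curves with one more puncture, and circles. -/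
abbrev SeiGrp {m : ℕ} (g s : Fin m → ℕ) :=
  (∀ i, CGrp (g i) (s i + 1)) × (∀ _i : Fin m, CGrp 0 (1 + 1))

/-- Its generators. -/
def seiGen {m : ℕ} (g s : Fin m → ℕ) : (Σ i, CGen (g i) (s i)) ⊕ Fin m → SeiGrp g s :=
  Sum.elim (fun v => (Pi.mulSingle v.1 (PresentedGroup.of (keep v.2)), 1))
    fun i => (1, Pi.mulSingle i (PresentedGroup.of (keep (Sum.inr 0))))

/-- The puncture filling the relation. -/
def seiLast {m : ℕ} (g s : Fin m → ℕ) (i : Fin m) : SeiGrp g s :=
  (Pi.mulSingle i (PresentedGroup.of (Sum.inr (Fin.last (s i)))), 1)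

lemma seiGen_closure {m : ℕ} (g s : Fin m → ℕ) (γ : SeiGrp g s) :
    γ ∈ Subgroup.closure (Set.range (seiGen g s)) := by
  set H := Subgroup.closure (Set.range (seiGen g s))
  have h1 : γ.1 ∈ H.comap
      (MonoidHom.inl (∀ i, CGrp (g i) (s i + 1)) (∀ _i : Fin m, CGrp 0 (1 + 1))) :=
    mem_of_keep _ (fun i v => by
      exact Subgroup.subset_closure ⟨Sum.inl ⟨i, v⟩, rfl⟩) γ.1
  have h2 : γ.2 ∈ H.comap
      (MonoidHom.inr (∀ i, CGrp (g i) (s i + 1)) (∀ _i : Fin m, CGrp 0 (1 + 1))) :=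
    mem_of_keep _ (fun i v => by
      rcases v with ⟨a, _⟩ | l
      · exact a.elim0
      · obtain rfl : l = 0 := Subsingleton.elim _ _
        exact Subgroup.subset_closure ⟨Sum.inr i, rfl⟩) γ.2
  rw [Subgroup.mem_comap] at h1 h2
  have := mul_mem h1 h2
  simpa using this

lemma rel_seiLast {m : ℕ} (g s : Fin m → ℕ) (τ : SeiGrp g s →* G) (i : Fin m) :
    (curveRel fun v => τ (seiGen g s (.inl ⟨i, v⟩))) = (τ (seiLast g s i))⁻¹ := by
  have := curveRel_hom ((τ.comp (MonoidHom.inl _ _)).comp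
    (MonoidHom.mulSingle (fun i => CGrp (g i) (s i + 1)) i))
  rw [curveRel_succ] at this
  exact mul_eq_one_iff_eq_inv.1 this

/-- Tuples with central elements give homomorphisms of the auxiliary product. -/
lemma exists_seiHom {m : ℕ} (g s : Fin m → ℕ) (f : (Σ i, CGen (g i) (s i)) ⊕ Fin m → G)
    (hcomm : ∀ v w : Σ i, CGen (g i) (s i), v.1 ≠ w.1 → f (.inl v) * f (.inl w) =
      f (.inl w) * f (.inl v))
    (hz : ∀ i w, f (.inr i) * f w = f w * f (.inr i)) :
    ∃ ρ : SeiGrp g s →* G, ∀ v, ρ (seiGen g s v) = f v := by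
  let F : ∀ i, CGen (g i) (s i + 1) → G := fun i => extP fun v => f (.inl ⟨i, v⟩)
  let F' : Fin m → CGen 0 (1 + 1) → G := fun i => extP fun _ : CGen 0 1 => f (.inr i)
  have hF : ∀ i j, i ≠ j → ∀ v w, F i v * F j w = F j w * F i v := fun i j hij v w =>
    (commute_extP _ (x := F i v) (fun w' => (commute_extP _ (x := f (.inl ⟨j, w'⟩))
      (fun v' => hcomm ⟨j, w'⟩ ⟨i, v'⟩ hij.symm) v).symm) w).eq
  have hzF : ∀ i w, Commute (f (.inr i)) w → ∀ v, Commute w (F' i v) := fun i w h v =>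
    commute_extP _ (fun _ => h.symm) v
  obtain ⟨ρ₁, h₁⟩ := exists_prodHom (g := g) (s := fun i => s i + 1) F
    (fun i => curveRel_extP _) hF
  obtain ⟨ρ₂, h₂⟩ := exists_prodHom (g := fun _ => 0) (s := fun _ => 1 + 1) F'
    (fun i => curveRel_extP _)
    (fun i j _ v w => (hzF j (F' i v) ((hzF i (f (.inr j)) (hz i (.inr j)) v)) w).eq)
  have hc : ∀ x y, Commute (ρ₁ x) (ρ₂ y) := fun x y => by
    have hy : ∀ i v, Commute (ρ₁ x) (F' i v) := fun i v => hzF i _ (by
      have := mem_of_keep ((Subgroup.centralizer {f (.inr i)}).comap ρ₁) (fun j w => by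
        rw [Subgroup.mem_comap, Subgroup.mem_centralizer_singleton_iff, h₁]
        simp only [F, extP_keep]
        exact (hz i (.inl ⟨j, w⟩)).symm) x
      rw [Subgroup.mem_comap, Subgroup.mem_centralizer_singleton_iff] at this
      exact this.symm) v
    have := mem_of_keep ((Subgroup.centralizer {ρ₁ x}).comap ρ₂) (fun j w => by
      rw [Subgroup.mem_comap, Subgroup.mem_centralizer_singleton_iff, h₂]
      exact (hy j (keep w)).eq.symm) y
    rw [Subgroup.mem_comap, Subgroup.mem_centralizer_singleton_iff] at this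
    exact this.symm
  refine ⟨MonoidHom.noncommCoprod ρ₁ ρ₂ hc, ?_⟩
  rintro (⟨i, v⟩ | i)
  · simp [seiGen, h₁, F, extP_keep]
  · simp [seiGen, h₂, F', extP_keep]

/-- Invariant polynomials vanishing at semisimple integral tuples satisfying Seifert relations
vanish at all semisimple ones. -/
theorem eval_zero_seifert {m : ℕ} [NeZero r] (g s : Fin m → ℕ) (hg : ∀ i, 2 ≤ g i)
    (n : ∀ i, Fin (s i) → ℕ) (hn : ∀ i l, 0 < n i l) (β : ∀ i, Fin (s i) → ℤ) (e : Fin m → ℤ)
    (T : Finset (Fin m)) (hE : ∀ i, i ∉ T → ∑ l, (β i l : ℚ) / n i l ≠ e i) :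
    ∃ M, 0 < M ∧ ∀ (P : MvPolynomial (SeiGrp g s × Fin r × Fin r) ℂ) (ρ : SeiGrp g s →* SLC r),
      (∀ i, (curveRel fun v => ρ (seiGen g s (.inl ⟨i, v⟩))) = ρ (seiGen g s (.inr i)) ^ e i) →
      (∀ i l, ρ (seiGen g s (.inl ⟨i, .inr l⟩)) ^ n i l = ρ (seiGen g s (.inr i)) ^ β i l) →
      (∀ i w, Commute (ρ (seiGen g s (.inr i))) (ρ (seiGen g s w))) →
      (∀ i ∈ T, ρ (seiGen g s (.inr i)) = 1) →
      (∀ U : Submodule ℂ (Fin r → ℂ), (∀ γ, ∀ u ∈ U, (ρ γ).val *ᵥ u ∈ U) →
        ∃ U', (∀ γ, ∀ u ∈ U', (ρ γ).val *ᵥ u ∈ U') ∧ IsCompl U U') →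
      (∀ h : SLC r, MvPolynomial.eval (hcoord fun γ => h * ρ γ * h⁻¹) P =
        MvPolynomial.eval (hcoord ρ) P) →
      (∀ τ : SeiGrp g s →* SLC r,
        (∀ i, (curveRel fun v => τ (seiGen g s (.inl ⟨i, v⟩))) = τ (seiGen g s (.inr i)) ^ e i) →
        (∀ i l, τ (seiGen g s (.inl ⟨i, .inr l⟩)) ^ n i l = τ (seiGen g s (.inr i)) ^ β i l) →
        (∀ i w, Commute (τ (seiGen g s (.inr i))) (τ (seiGen g s w))) →
        (∀ i ∈ T, τ (seiGen g s (.inr i)) = 1) →
        (∀ γ p q, (τ γ).val p q ∈ intL M) →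
        (∀ U : Submodule ℂ (Fin r → ℂ), (∀ γ, ∀ u ∈ U, (τ γ).val *ᵥ u ∈ U) →
          ∃ U', (∀ γ, ∀ u ∈ U', (τ γ).val *ᵥ u ∈ U') ∧ IsCompl U U') →
        MvPolynomial.eval (hcoord τ) P = 0) →
      MvPolynomial.eval (hcoord ρ) P = 0 := by
  classical
  obtain ⟨hT1, hA1⟩ := twistedB_curves m g (fun i => s i + 1) (fun _ => true)
    fun i _ => Or.inl (hg i)
  obtain ⟨hT2, hA2⟩ := twistedB_curves m (fun _ => 0) (fun _ => 1 + 1) (fun _ => true)
    fun i _ => Or.inr (Or.inr ⟨rfl, le_rfl⟩)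
  let Q : Fin m → ℕ := fun i => ∏ l, n i l
  let D : Fin m → ℤ := fun i => e i * Q i - ∑ l, β i l * ((Q i / n i l : ℕ) : ℤ)
  have hQ : ∀ i l, n i l * (Q i / n i l) = Q i := fun i l =>
    Nat.mul_div_cancel' (Finset.dvd_prod_of_mem _ (Finset.mem_univ l))
  have hD : ∀ i, i ∉ T → D i ≠ 0 := fun i hi h0 => hE i hi (by
    have hQ0 : (Q i : ℚ) ≠ 0 := Nat.cast_ne_zero.2 (Finset.prod_pos fun l _ => hn i l).ne'
    have h1 : ((D i : ℤ) : ℚ) = 0 := by rw [h0]; simp
    simp only [D, Int.cast_sub, Int.cast_mul, Int.cast_sum, Int.cast_natCast, sub_eq_zero] at h1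
    refine mul_right_cancel₀ hQ0 (Eq.trans ?_ h1.symm)
    rw [Finset.sum_mul]
    refine Finset.sum_congr rfl fun l _ => ?_
    have hn0 : (n i l : ℚ) ≠ 0 := Nat.cast_ne_zero.2 (hn i l).ne'
    have hq : (n i l : ℚ) * ((Q i / n i l : ℕ) : ℚ) = Q i := by exact_mod_cast hQ i l
    rw [← hq]
    field_simp)
  let Ni : Fin m → ℕ := fun i => if i ∈ T then 1 else r.factorial * (D i).natAbs
  let N := ∏ i, (Ni i * Q i)
  have hNi : ∀ i, 0 < Ni i := fun i => by
    show 0 < ite _ _ _
    split_ifs with hi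
    exacts [one_pos, Nat.mul_pos r.factorial_pos (Int.natAbs_pos.2 (hD i hi))]
  have hN : 0 < N := Finset.prod_pos fun i _ =>
    Nat.mul_pos (hNi i) (Finset.prod_pos fun l _ => hn i l)
  obtain ⟨M, hM, hmain⟩ := eval_zero_of_twistedB (r := r) (hT1.prod hT2) (hA1.prod hA2) hN
  refine ⟨M, hM, fun P ρ hrel hcn hz hT hss hinv hP0 => ?_⟩
  set K := (fun c => (c, (1 : ∀ _i : Fin m, CGrp 0 (1 + 1)))) '' pmarks g (fun i => s i + 1)
      (fun _ => true) ∪
    (fun c => ((1 : ∀ i, CGrp (g i) (s i + 1)), c)) '' pmarks (fun _ => 0) (fun _ => 1 + 1)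
      (fun _ => true)
  have hKgen : ∀ i l, seiGen g s (.inl ⟨i, .inr l⟩) ∈ K := fun i l =>
    Or.inl ⟨_, ⟨i, l.castSucc, rfl, rfl⟩, rfl⟩
  have hKz : ∀ i, seiGen g s (.inr i) ∈ K := fun i =>
    Or.inr ⟨_, ⟨i, (0 : Fin 1).castSucc, rfl, rfl⟩, rfl⟩
  have hKlast : ∀ i, seiLast g s i ∈ K := fun i =>
    Or.inl ⟨_, ⟨i, Fin.last (s i), rfl, rfl⟩, rfl⟩
  have hlast : ∀ i, ρ (seiLast g s i) = ρ (seiGen g s (.inr i)) ^ (-e i) := fun i => by
    rw [_root_.zpow_neg, ← hrel i, rel_seiLast, inv_inv]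
  have hcentral : ∀ i w, ∀ k : ℤ, Commute (ρ (seiGen g s (.inr i)) ^ k) (ρ w) := fun i w k => by
    have hle : Subgroup.closure (Set.range (seiGen g s)) ≤
        (Subgroup.centralizer {ρ (seiGen g s (.inr i))}).comap ρ := (Subgroup.closure_le _).2 (by
      rintro _ ⟨v, rfl⟩
      exact Subgroup.mem_centralizer_singleton_iff.2 (hz i v).eq.symm)
    have := Subgroup.mem_centralizer_singleton_iff.1 (hle (seiGen_closure g s w))
    exact (show Commute (ρ (seiGen g s (.inr i))) (ρ w) from this.symm).zpow_left k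
  have hqz : ∀ i, Quasi (Ni i) (ρ (seiGen g s (.inr i))).val := fun i => by
    show Quasi (ite _ _ _) _
    split_ifs with hi
    · intro μ x hx he
      rw [hT i hi, Matrix.SpecialLinearGroup.coe_one, Matrix.one_mulVec] at he
      rw [pow_one]
      exact smul_left_injective ℂ hx (he.symm.trans (one_smul ℂ x).symm)
    · exact quasi_central _ _ (fun v => hz i (.inl ⟨i, v⟩)) (n i) (β i) (e i) (hrel i) (hcn i)
        (D i) (fun l => Q i / n i l) (Q i) (hQ i) rfl
  have hdvd : ∀ i, Ni i * Q i ∣ N := fun i =>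
    Finset.dvd_prod_of_mem (fun i => Ni i * Q i) (Finset.mem_univ i)
  have hqK : ∀ c ∈ K, Quasi N (ρ c).val := by
    have hpow : ∀ i (k : ℤ), Quasi N (ρ (seiGen g s (.inr i)) ^ k).val := fun i k =>
      (quasi_zpow (hqz i) k).mono ((Dvd.intro _ rfl).trans (hdvd i))
    rintro _ (⟨_, ⟨i, l, -, rfl⟩, rfl⟩ | ⟨_, ⟨i, l, -, rfl⟩, rfl⟩)
    · induction l using Fin.lastCases with
      | last =>
        show Quasi N (ρ (seiLast g s i)).val
        rw [hlast]
        exact hpow i _
      | cast l =>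
        show Quasi N (ρ (seiGen g s (.inl ⟨i, .inr l⟩))).val
        refine (quasi_root (quasi_zpow (hqz i) (β i l)) (hcn i l)).mono ?_
        rw [mul_comm]
        exact (Nat.mul_dvd_mul_left _ (Finset.dvd_prod_of_mem _ (Finset.mem_univ l))).trans (hdvd i)
    · induction l using Fin.lastCases with
      | last =>
        have h : ρ (1, Pi.mulSingle i (PresentedGroup.of (Sum.inr (Fin.last 1)))) =
            ρ (seiGen g s (.inr i)) ^ (-1 : ℤ) := by
          have h' := curveRel_hom ((ρ.comp (MonoidHom.inr _ _)).comp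
            (MonoidHom.mulSingle (fun _ : Fin m => CGrp 0 (1 + 1)) i))
          rw [curveRel_succ] at h'
          rw [_root_.zpow_neg_one]
          refine eq_inv_of_mul_eq_one_right ?_
          simpa [curveRel, seiGen, keep, Function.comp_apply, Function.comp_def] using h'
        show Quasi N (ρ (1, Pi.mulSingle i (PresentedGroup.of (Sum.inr (Fin.last 1))))).val
        rw [h]
        exact hpow i _
      | cast l =>
        obtain rfl : l = 0 := Subsingleton.elim _ _
        show Quasi N (ρ (seiGen g s (.inr i))).val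
        simpa using hpow i 1
  refine hmain P ρ hss hqK hinv fun τ _ ⟨h, hh⟩ hint hτss => ?_
  have hz' : ∀ i, τ (seiGen g s (.inr i)) = h * ρ (seiGen g s (.inr i)) * h⁻¹ ∧
      ∀ γ, Commute (τ (seiGen g s (.inr i))) (τ γ) := fun i => by
    simpa using hh _ (hKz i) 1 fun γ => by simpa using hcentral i γ 1
  refine hP0 τ (fun i => ?_) (fun i l => ?_) (fun i w => (hz' i).2 _) (fun i hi => ?_) hint hτss
  · have hl := (hh _ (hKlast i) 1 fun γ => by
      rw [pow_one, hlast]; exact hcentral i γ _).1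
    rw [pow_one, hlast] at hl
    rw [rel_seiLast, hl, (hz' i).1, conj_zpow, _root_.zpow_neg]
    group
  · have hl := (hh _ (hKgen i l) (n i l) fun γ => by
      rw [map_pow, hcn]; exact hcentral i γ _).1
    rw [map_pow, map_pow, hcn] at hl
    rw [hl, (hz' i).1, conj_zpow]
  · rw [(hz' i).1, hT i hi]
    group

end Vale.Agent.P002
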